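import Vale.Agent.P353.AN.NF.Defs

/-! # P353, all `N`, block NF: change of the colour frame of a model -/

open MeasureTheory Filter Topology Matrix
open scoped ContDiff

namespace Vale.Agent.P353.Z.ANF

universe u

variable {N d : ℕ}

theorem basM_stmt : BasMStmt.{u} := by
  intro N d F _ _ M
  exact ⟨M.dim_eq, M.T_hermitian, M.T_traceless, M.T_orthonormal, M.T_comm⟩

/-- rotated basis -/
noncomputable def rotm_T (O : Matrix (Fin d) (Fin d) ℝ) (T : Fin d → Matrix (Fin N) (Fin N) ℂ) (A : Fin d) :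
    Matrix (Fin N) (Fin N) ℂ := ∑ B, ((O A B : ℝ) : ℂ) • T B

lemma rotm_row {O : Matrix (Fin d) (Fin d) ℝ} (hO : O * Oᵀ = 1) (A B : Fin d) :
    ∑ k, O A k * O B k = if A = B then 1 else 0 := by
  have := congrFun (congrFun hO A) B
  rw [Matrix.mul_apply, Matrix.one_apply] at this
  simpa [Matrix.transpose_apply] using this

lemma rotm_col {O : Matrix (Fin d) (Fin d) ℝ} (hO : O * Oᵀ = 1) (k l : Fin d) :
    ∑ E, O E k * O E l = if k = l then 1 else 0 := by
  have hO' : Oᵀ * O = 1 := mul_eq_one_comm.1 hO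
  have := congrFun (congrFun hO' k) l
  rw [Matrix.mul_apply, Matrix.one_apply] at this
  simpa [Matrix.transpose_apply] using this

/-- back rotation in a complex module -/
lemma rotm_back {V : Type*} [AddCommGroup V] [Module ℂ V] {O : Matrix (Fin d) (Fin d) ℝ} (hO : O * Oᵀ = 1)
    (x : Fin d → V) (k : Fin d) :
    ∑ A, ((O A k : ℝ) : ℂ) • ∑ B, ((O A B : ℝ) : ℂ) • x B = x k := by
  have h1 : ∀ A, ((O A k : ℝ) : ℂ) • (∑ B, ((O A B : ℝ) : ℂ) • x B) =
      ∑ B, ((O A k * O A B : ℝ) : ℂ) • x B := by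
    intro A
    rw [Finset.smul_sum]
    refine Finset.sum_congr rfl fun B _ => ?_
    rw [smul_smul, Complex.ofReal_mul]
  simp only [h1]
  rw [Finset.sum_comm]
  have h2 : ∀ B, (∑ A, ((O A k * O A B : ℝ) : ℂ) • x B) = if k = B then x B else 0 := by
    intro B
    rw [← Finset.sum_smul, ← Complex.ofReal_sum, rotm_col hO]
    split_ifs
    · rw [Complex.ofReal_one, one_smul]
    · rw [Complex.ofReal_zero, zero_smul]
  simp only [h2, Finset.sum_ite_eq, Finset.mem_univ, if_true]

lemma rotm_ad (O : Matrix (Fin d) (Fin d) ℝ) (T : Fin d → Matrix (Fin N) (Fin N) ℂ) (U : BFSS.SU N)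
    (B A : Fin d) :
    BFSS.adCoeff (rotm_T O T) U B A = ∑ C, ∑ D, O B C * (O A D * BFSS.adCoeff T U C D) := by
  unfold BFSS.adCoeff rotm_T
  have h1 : U.val * (∑ D, ((O A D : ℝ) : ℂ) • T D) * U.val.conjTranspose =
      ∑ D, ((O A D : ℝ) : ℂ) • (U.val * T D * U.val.conjTranspose) := by
    rw [Finset.mul_sum, Finset.sum_mul]
    refine Finset.sum_congr rfl fun D _ => ?_
    rw [Matrix.mul_smul, Matrix.smul_mul]
  rw [h1, Finset.sum_mul, Matrix.trace_sum, Complex.re_sum]
  refine Finset.sum_congr rfl fun C _ => ?_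
  rw [Matrix.smul_mul, Finset.mul_sum, Matrix.trace_smul, Matrix.trace_sum, smul_eq_mul,
    Complex.re_ofReal_mul, Complex.re_sum, Finset.mul_sum]
  refine Finset.sum_congr rfl fun D _ => ?_
  rw [Matrix.mul_smul, Matrix.trace_smul, smul_eq_mul, Complex.re_ofReal_mul]

lemma rotm_adO (O : Matrix (Fin d) (Fin d) ℝ) (T : Fin d → Matrix (Fin N) (Fin N) ℂ) (U : BFSS.SU N) :
    adO (rotm_T O T) U = O * adO T U * Oᵀ := by
  ext B A
  unfold adO
  rw [Matrix.of_apply, rotm_ad, Matrix.mul_apply, Finset.sum_comm]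
  refine Finset.sum_congr rfl fun D _ => ?_
  rw [Matrix.mul_apply, Finset.sum_mul]
  refine Finset.sum_congr rfl fun C _ => ?_
  rw [Matrix.transpose_apply, Matrix.of_apply]
  ring

/-- `Σ_B (O X Oᵀ)_{BA} Σ_E O_{BE} x_E = Σ_C Σ_D O_{AD} X_{CD} x_C` -/
lemma rotm_conj {V : Type*} [AddCommGroup V] [Module ℂ V] {O : Matrix (Fin d) (Fin d) ℝ} (hO : O * Oᵀ = 1)
    (X : Matrix (Fin d) (Fin d) ℝ) (x : Fin d → V) (A : Fin d) :
    ∑ B, (((O * X * Oᵀ) B A : ℝ) : ℂ) • ∑ E, ((O B E : ℝ) : ℂ) • x E =
      ∑ D, ((O A D : ℝ) : ℂ) • ∑ C, ((X C D : ℝ) : ℂ) • x C := by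
  have h1 : ∀ B, (((O * X * Oᵀ) B A : ℝ) : ℂ) = ∑ D, ∑ C, ((O A D : ℝ) : ℂ) * (((X C D : ℝ) : ℂ) * ((O B C : ℝ) : ℂ)) := by
    intro B
    rw [Matrix.mul_apply, Complex.ofReal_sum]
    refine Finset.sum_congr rfl fun D _ => ?_
    rw [Matrix.mul_apply, Finset.sum_mul, Complex.ofReal_sum]
    refine Finset.sum_congr rfl fun C _ => ?_
    rw [Matrix.transpose_apply]
    push_cast
    ring
  have h2 : ∀ B, (((O * X * Oᵀ) B A : ℝ) : ℂ) • (∑ E, ((O B E : ℝ) : ℂ) • x E) =
      ∑ D, ((O A D : ℝ) : ℂ) • ∑ C, ((X C D : ℝ) : ℂ) • (((O B C : ℝ) : ℂ) • ∑ E, ((O B E : ℝ) : ℂ) • x E) := by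
    intro B
    rw [h1, Finset.sum_smul]
    refine Finset.sum_congr rfl fun D _ => ?_
    rw [Finset.sum_smul, Finset.smul_sum]
    refine Finset.sum_congr rfl fun C _ => ?_
    rw [smul_smul, smul_smul, mul_assoc]
  simp only [h2]
  rw [Finset.sum_comm]
  refine Finset.sum_congr rfl fun D _ => ?_
  rw [← Finset.smul_sum, Finset.sum_comm]
  congr 1
  refine Finset.sum_congr rfl fun C _ => ?_
  rw [← Finset.smul_sum, rotm_back hO x C]

theorem rotM_stmt : RotMStmt.{u} := by
  intro N d F _ _ M S hR O h1 hO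
  set S' : Setup d F := S.rot 1 h1 O hO with hS'
  have hth : ∀ α A, S'.th α A = ∑ B, ((O A B : ℝ) : ℂ) • M.θ α B := by
    intro α A
    rw [hS']
    show ∑ B, ((O A B : ℝ) : ℂ) • S.th α B = _
    rw [hR.hth]
  have hf : ∀ A B C, S'.f A B C = ∑ A', ∑ B', ∑ C', O A A' * O B B' * O C C' * M.f A' B' C' := by
    intro A B C
    rw [hS', ← hR.hf]
    rfl
  have hback : ∀ α k v, M.θ α k v = ∑ A, ((O A k : ℝ) : ℂ) • S'.th α A v := by
    intro α k v
    have e1 := DFunLike.congr_fun (rotm_back hO (M.θ α) k) v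
    rw [← e1, _root_.sum_apply]
    refine Finset.sum_congr rfl fun A _ => ?_
    rw [_root_.smul_apply, hth]
  let M' : BFSS.Model N d F :=
    { dim_eq := M.dim_eq
      T := rotm_T O M.T
      T_hermitian := by
        intro A
        unfold rotm_T
        rw [Matrix.conjTranspose_sum]
        refine Finset.sum_congr rfl fun B _ => ?_
        rw [Matrix.conjTranspose_smul, M.T_hermitian]
        congr 1
        exact Complex.conj_ofReal _
      T_traceless := by
        intro A
        unfold rotm_T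
        rw [Matrix.trace_sum]
        refine Finset.sum_eq_zero fun B _ => ?_
        rw [Matrix.trace_smul, M.T_traceless, smul_zero]
      T_orthonormal := by
        intro A B
        unfold rotm_T
        rw [Finset.sum_mul, Matrix.trace_sum]
        have e1 : ∀ C, (((O A C : ℝ) : ℂ) • M.T C * ∑ D, ((O B D : ℝ) : ℂ) • M.T D).trace =
            ((O A C * O B C : ℝ) : ℂ) := by
          intro C
          rw [Matrix.smul_mul, Matrix.trace_smul, Finset.mul_sum, Matrix.trace_sum]
          have e2 : ∀ D, (M.T C * (((O B D : ℝ) : ℂ) • M.T D)).trace =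
              if C = D then ((O B D : ℝ) : ℂ) else 0 := by
            intro D
            rw [Matrix.mul_smul, Matrix.trace_smul, M.T_orthonormal]
            split_ifs
            · rw [smul_eq_mul, mul_one]
            · rw [smul_zero]
          simp only [e2, Finset.sum_ite_eq, Finset.mem_univ, if_true, smul_eq_mul, Complex.ofReal_mul]
        simp only [e1]
        rw [← Complex.ofReal_sum, rotm_row hO]
        split_ifs
        · exact Complex.ofReal_one
        · exact Complex.ofReal_zero
      f := S'.f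
      T_comm := by
        intro A B
        have e1 : rotm_T O M.T A * rotm_T O M.T B - rotm_T O M.T B * rotm_T O M.T A =
            ∑ A', ∑ B', (((O A A' : ℝ) : ℂ) * ((O B B' : ℝ) : ℂ)) • (M.T A' * M.T B' - M.T B' * M.T A') := by
          unfold rotm_T
          rw [Finset.sum_mul_sum, Finset.sum_mul_sum, Finset.sum_comm (s := Finset.univ) (t := Finset.univ)
            (f := fun l k => (((O B l : ℝ) : ℂ) • M.T l) * (((O A k : ℝ) : ℂ) • M.T k)), ← Finset.sum_sub_distrib]
          refine Finset.sum_congr rfl fun k _ => ?_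
          rw [← Finset.sum_sub_distrib]
          refine Finset.sum_congr rfl fun l _ => ?_
          rw [smul_mul_smul_comm, smul_mul_smul_comm, smul_sub, mul_comm (((O B l : ℝ) : ℂ))]
        rw [e1]
        have e3 : ∀ A' B', M.T A' * M.T B' - M.T B' * M.T A' =
            ∑ C', (Complex.I * (M.f A' B' C' : ℂ)) • ∑ C, ((O C C' : ℝ) : ℂ) • rotm_T O M.T C := by
          intro A' B'
          rw [M.T_comm]
          refine Finset.sum_congr rfl fun C' _ => ?_
          unfold rotm_T
          rw [rotm_back hO M.T C']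
        have e4 : ∀ C, (Complex.I * (S'.f A B C : ℂ)) • rotm_T O M.T C =
            ∑ A', ∑ B', ∑ C', (((O A A' : ℝ) : ℂ) * ((O B B' : ℝ) : ℂ)) •
              ((Complex.I * (M.f A' B' C' : ℂ)) • (((O C C' : ℝ) : ℂ) • rotm_T O M.T C)) := by
          intro C
          rw [hf]
          push_cast
          rw [Finset.mul_sum, Finset.sum_smul]
          refine Finset.sum_congr rfl fun A' _ => ?_
          rw [Finset.mul_sum, Finset.sum_smul]
          refine Finset.sum_congr rfl fun B' _ => ?_
          rw [Finset.mul_sum, Finset.sum_smul]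
          refine Finset.sum_congr rfl fun C' _ => ?_
          rw [smul_smul, smul_smul]
          congr 1
          ring
        symm
        simp only [e4]
        rw [Finset.sum_comm]
        refine Finset.sum_congr rfl fun A' _ => ?_
        rw [Finset.sum_comm]
        refine Finset.sum_congr rfl fun B' _ => ?_
        rw [Finset.sum_comm, e3, Finset.smul_sum]
        refine Finset.sum_congr rfl fun C' _ => ?_
        rw [Finset.smul_sum, Finset.smul_sum]
      γ := M.γ
      γ_symm := M.γ_symm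
      γ_anticomm := M.γ_anticomm
      θ := S'.th
      θ_selfAdjoint := S'.th_sa
      θ_anticomm := by
        intro α A β B v
        have e1 := DFunLike.congr_fun (S'.th_anti α A β B) v
        have e2 : (if α = β ∧ A = B then (1 : F →L[ℂ] F) else 0) v = if α = β ∧ A = B then v else 0 := by
          split_ifs
          · rfl
          · rfl
        rw [e2] at e1
        exact e1
      θ_irreducible := by
        intro W hW
        refine M.θ_irreducible W fun α k v hv => ?_
        rw [hback]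
        exact Submodule.sum_mem _ fun A _ => W.smul_mem _ (hW α A v hv)
      nontrivial := M.nontrivial
      S := M.S
      S_mul := M.S_mul
      S_isometry := M.S_isometry
      S_continuous := M.S_continuous
      S_rotates := by
        intro U α A v
        have e0 : ∀ B, ((BFSS.adCoeff (rotm_T O M.T) U B A : ℝ) : ℂ) = (((O * adO M.T U * Oᵀ) B A : ℝ) : ℂ) := by
          intro B
          rw [← rotm_adO]
          rfl
        have e1 : ∀ B (w : F), S'.th α B w = ∑ E, ((O B E : ℝ) : ℂ) • M.θ α E w := by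
          intro B w
          rw [hth, _root_.sum_apply]
          exact Finset.sum_congr rfl fun E _ => _root_.smul_apply _ _ _
        have e2 := rotm_conj hO (adO M.T U) (fun E => M.θ α E (M.S U v)) A
        simp only [e0, e1]
        rw [e2, map_sum]
        refine Finset.sum_congr rfl fun D _ => ?_
        rw [map_smul, M.S_rotates]
        rfl }
  refine ⟨M', ⟨?_, rfl, ?_, rfl⟩, fun A => rfl, rfl, ?_, ?_⟩
  · exact hR.hκ
  · intro i α β
    show (∑ j, ((((1 : Matrix (Fin 9) (Fin 9) ℝ) i j : ℝ) : ℂ)) • S.g j) α β = ((M.γ i α β : ℝ) : ℂ)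
    rw [Matrix.sum_apply, Finset.sum_eq_single i]
    · rw [Matrix.smul_apply, Matrix.one_apply_eq, Complex.ofReal_one, one_smul, hR.hg]
    · intro j _ hj
      rw [Matrix.smul_apply, Matrix.one_apply_ne hj.symm, Complex.ofReal_zero, zero_smul]
    · intro h
      exact absurd (Finset.mem_univ _) h
  · intro V x
    have e0 : ∀ B A, BFSS.adCoeff (rotm_T O M.T) V B A = (O * adO M.T V * Oᵀ) B A := by
      intro B A
      rw [← rotm_adO]
      rfl
    have hO' : Oᵀ * O = 1 := mul_eq_one_comm.1 hO
    ext p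
    show ∑ A, BFSS.adCoeff (rotm_T O M.T) V p.2 A * ∑ B, O A B * x (p.1, B) =
      ∑ B, O p.2 B * ∑ A, BFSS.adCoeff M.T V B A * x (p.1, A)
    simp only [e0]
    have e1 : (O * adO M.T V * Oᵀ) *ᵥ (O *ᵥ fun B => x (p.1, B)) =
        O *ᵥ (adO M.T V *ᵥ fun B => x (p.1, B)) := by
      rw [mulVec_mulVec, mulVec_mulVec, Matrix.mul_assoc, hO', Matrix.mul_one]
    exact congrFun e1 p.2
  · intro V
    exact rotm_adO O M.T V

end Vale.Agent.P353.Z.ANF
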