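import Vale.Agent.P353.AN.NF.Reg

/-! # P353, all `N`, block NF: block values of the central configurations -/

open MeasureTheory Filter Topology Matrix
open scoped ContDiff

namespace Vale.Agent.P353.Z.ANF

universe u

variable {N d dh dm ds dz k : ℕ} {n : Fin k → ℕ} {T : Fin d → Matrix (Fin N) (Fin N) ℂ} {φ : Spl dh dm d} {ψ : Spl ds dz dh}

theorem nv542_sum {M : Type*} [AddCommMonoid M] (g : Fin k → M) :
    ∑ s : Σ a, Fin (n a), g s.1 = ∑ a, n a • g a := by
  rw [Fintype.sum_sigma]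
  simp

theorem nv542_tr (E : (Σ a, Fin (n a)) ≃ Fin N) (v : Fin k → ℂ) : (bd E v).trace = ∑ a, (n a : ℂ) * v a := by
  simp only [Matrix.trace, Matrix.diag_apply]
  rw [← E.sum_comp]
  simp only [nr775_bd, if_true]
  rw [nv542_sum]
  simp

theorem nv542_bdmul (E : (Σ a, Fin (n a)) ≃ Fin N) (v : Fin k → ℂ) (X : Matrix (Fin N) (Fin N) ℂ)
    (s t : Σ a, Fin (n a)) : (bd E v * X) (E s) (E t) = v s.1 * X (E s) (E t) := by
  rw [Matrix.mul_apply, ← E.sum_comp]
  simp [nr775_bd]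

theorem nv542_tr2 (E : (Σ a, Fin (n a)) ≃ Fin N) (v w : Fin k → ℂ) :
    (bd E v * bd E w).trace = ∑ a, (n a : ℂ) * (v a * w a) := by
  simp only [Matrix.trace, Matrix.diag_apply]
  rw [← E.sum_comp]
  simp only [nv542_bdmul, nr775_bd, if_true]
  rw [nv542_sum fun a => v a * w a]
  simp

theorem nv542_bk (E : (Σ a, Fin (n a)) ≃ Fin N) (a : Fin k) (X : Matrix (Fin (n a)) (Fin (n a)) ℂ) (v : Fin k → ℂ)
    (hX : X.trace = 0) : (bk E a X * bd E v).trace = 0 := by
  rw [Matrix.trace_mul_comm]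
  simp only [Matrix.trace, Matrix.diag_apply]
  rw [← E.sum_comp]
  simp only [nv542_bdmul]
  rw [Fintype.sum_sigma, Finset.sum_eq_single a]
  · simp only [bk, Matrix.submatrix_apply, Equiv.symm_apply_apply, Matrix.blockDiagonal'_apply_eq, Pi.single_eq_same]
    rw [← Finset.mul_sum]
    have : ∑ i, X i i = 0 := hX
    rw [this, mul_zero]
  · intro b _ hb
    refine Finset.sum_eq_zero fun i _ => ?_
    simp only [bk, Matrix.submatrix_apply, Equiv.symm_apply_apply, Matrix.blockDiagonal'_apply_eq, Pi.single_eq_of_ne hb]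
    simp
  · simp

theorem nv542_tr0 {f : Fin d → Fin d → Fin d → ℝ} (hb : Bas N d T f) (fr : NFr n T φ ψ) (B : Fin dz) :
    ∑ a, (n a : ℝ) * fr.c B a = 0 := by
  have h := hb.tr0 (φ (Sum.inl (ψ (Sum.inr B))))
  rw [fr.z_eq, nv542_tr] at h
  exact_mod_cast h

theorem nv542_orth {f : Fin d → Fin d → Fin d → ℝ} (hb : Bas N d T f) (fr : NFr n T φ ψ) (B B' : Fin dz) :
    ∑ a, (n a : ℝ) * (fr.c B a * fr.c B' a) = if B = B' then 1 else 0 := by
  have h := hb.ortho (φ (Sum.inl (ψ (Sum.inr B)))) (φ (Sum.inl (ψ (Sum.inr B'))))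
  rw [fr.z_eq, fr.z_eq, nv542_tr2] at h
  have h2 : (φ (Sum.inl (ψ (Sum.inr B))) = φ (Sum.inl (ψ (Sum.inr B')))) ↔ B = B' := by simp
  simp only [h2] at h
  by_cases hB : B = B'
  · rw [if_pos hB] at h ⊢
    exact_mod_cast h
  · rw [if_neg hB] at h ⊢
    exact_mod_cast h

/-- the coordinates are recovered from the values -/
theorem nv542_coord {f : Fin d → Fin d → Fin d → ℝ} (hb : Bas N d T f) (fr : NFr n T φ ψ) (η : Cfg dz) (i : Fin 9)
    (B : Fin dz) : ∑ a, (n a : ℝ) * (fr.c B a * fr.val η i a) = η (i, B) := by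
  unfold NFr.val
  have h1 : ∀ a, (n a : ℝ) * (fr.c B a * ∑ B', η (i, B') * fr.c B' a) =
      ∑ B', η (i, B') * ((n a : ℝ) * (fr.c B a * fr.c B' a)) := by
    intro a
    rw [Finset.mul_sum, Finset.mul_sum]
    exact Finset.sum_congr rfl fun B' _ => by ring
  simp only [h1]
  rw [Finset.sum_comm]
  simp only [← Finset.mul_sum, nv542_orth hb fr]
  simp

/-- completeness of the block scalar matrices -/
theorem nv542_comp {f : Fin d → Fin d → Fin d → ℝ} (hb : Bas N d T f) (fr : NFr n T φ ψ) (v : Fin k → ℝ)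
    (hv : ∑ a, (n a : ℝ) * v a = 0) (a : Fin k) : ∑ B, (∑ b, (n b : ℝ) * (fr.c B b * v b)) * fr.c B a = v a := by
  have hpa := fr.pos a
  obtain ⟨s0, hs0⟩ : ∃ s0 : Σ a, Fin (n a), s0.1 = a := ⟨⟨a, ⟨0, hpa⟩⟩, rfl⟩
  have hN : 0 < N := (fr.E s0).pos
  have htr : (bd fr.E fun b => ((v b : ℝ) : ℂ)).trace = 0 := by
    rw [nv542_tr]
    exact_mod_cast hv
  have hc := nr775_complete hb hN (bd fr.E fun b => ((v b : ℝ) : ℂ))
  rw [htr, zero_div, zero_smul, add_zero, ← φ.sum_comp, Fintype.sum_sum_type, ← ψ.sum_comp, Fintype.sum_sum_type] at hc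
  have hbd : NrBD fr.E (bd fr.E fun b => ((v b : ℝ) : ℂ)) := by
    intro s t h
    rw [nr775_bd, if_neg]
    rintro rfl
    exact h rfl
  have e1 : ∀ A, (T (φ (Sum.inl (ψ (Sum.inl A)))) * bd fr.E fun b => ((v b : ℝ) : ℂ)).trace = 0 := by
    intro A
    obtain ⟨⟨b, i⟩, rfl⟩ := fr.es.surjective A
    rw [fr.s_eq]
    exact nv542_bk _ _ _ _ ((fr.Tb_bas (n b) (fr.pos b)).tr0 i)
  have e2 : ∀ C, (T (φ (Sum.inr C)) * bd fr.E fun b => ((v b : ℝ) : ℂ)).trace = 0 := by
    intro C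
    rw [Matrix.trace_mul_comm]
    exact nr775_tr hbd (fr.m_eq C)
  simp only [e1, e2, zero_smul, Finset.sum_const_zero, zero_add, add_zero, fr.z_eq, nv542_tr2] at hc
  have h3 := congrFun (congrFun hc (fr.E s0)) (fr.E s0)
  rw [Matrix.sum_apply, nr775_bd, if_pos rfl] at h3
  simp only [Matrix.smul_apply, nr775_bd, if_true, smul_eq_mul, hs0] at h3
  exact_mod_cast h3.symm

theorem val_stmt (f : Fin d → Fin d → Fin d → ℝ) (fr : NFr n T φ ψ) : ValStmt f fr := by
  intro hb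
  refine ⟨fun η i => ?_, fun v hv => ?_, fun η η' h => ?_, fun η i => ?_, nv542_tr0 hb fr⟩
  · unfold NFr.val
    have h1 : ∀ a, (n a : ℝ) * ∑ B, η (i, B) * fr.c B a = ∑ B, η (i, B) * ((n a : ℝ) * fr.c B a) := by
      intro a
      rw [Finset.mul_sum]
      exact Finset.sum_congr rfl fun B _ => by ring
    simp only [h1]
    rw [Finset.sum_comm]
    simp only [← Finset.mul_sum, nv542_tr0 hb fr, mul_zero, Finset.sum_const_zero]
  · refine ⟨WithLp.toLp 2 fun q : Fin 9 × Fin dz => ∑ b, (n b : ℝ) * (fr.c q.2 b * v q.1 b), fun i a => ?_⟩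
    exact nv542_comp hb fr (v i) (hv i) a
  · ext ⟨i, B⟩
    rw [← nv542_coord hb fr η i B, ← nv542_coord hb fr η' i B]
    simp only [h]
  · have h1 : ∀ a, (n a : ℝ) * fr.val η i a ^ 2 = ∑ B, η (i, B) * ((n a : ℝ) * (fr.c B a * fr.val η i a)) := by
      intro a
      have h2 : fr.val η i a ^ 2 = (∑ B, η (i, B) * fr.c B a) * fr.val η i a := by
        rw [sq]
        rfl
      rw [h2, Finset.sum_mul, Finset.mul_sum]
      exact Finset.sum_congr rfl fun B _ => by ring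
    simp only [h1]
    rw [Finset.sum_comm]
    simp only [← Finset.mul_sum, nv542_coord hb fr]
    exact Finset.sum_congr rfl fun B _ => by ring

end Vale.Agent.P353.Z.ANF
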