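import Vale.Agent.P353.AN.NF.Defs

/-! # P353, all `N`, block NF: the adjoint action of an exchange of two equal blocks (`SwStmt`) -/

open MeasureTheory Filter Topology Matrix
open scoped ContDiff

namespace Vale.Agent.P353.Z

namespace ANF

namespace Sw518

variable {k : ℕ} {n : Fin k → ℕ} {a b : Fin k}

lemma sw_a (hab : n a = n b) (x : Fin (n a)) : swP a b hab ⟨a, x⟩ = ⟨b, Fin.cast hab x⟩ := by
  unfold swP
  rw [dif_pos rfl]

lemma sw_b (hne : a ≠ b) (hab : n a = n b) (x : Fin (n b)) : swP a b hab ⟨b, x⟩ = ⟨a, Fin.cast hab.symm x⟩ := by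
  unfold swP
  rw [dif_neg (show ¬ (⟨b, x⟩ : Σ a, Fin (n a)).1 = a from hne.symm), dif_pos rfl]

lemma sw_o (hab : n a = n b) (p : Σ a, Fin (n a)) (h1 : p.1 ≠ a) (h2 : p.1 ≠ b) : swP a b hab p = p := by
  unfold swP
  rw [dif_neg h1, dif_neg h2]

lemma sw_fst (hne : a ≠ b) (hab : n a = n b) (p : Σ a, Fin (n a)) : (swP a b hab p).1 = Equiv.swap a b p.1 := by
  obtain ⟨e, x⟩ := p
  by_cases h1 : e = a
  · subst h1
    rw [sw_a, Equiv.swap_apply_left]
  · by_cases h2 : e = b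
    · subst h2
      rw [sw_b hne, Equiv.swap_apply_right]
    · rw [sw_o hab _ h1 h2, Equiv.swap_apply_of_ne_of_ne h1 h2]

lemma sw_sw (hne : a ≠ b) (hab : n a = n b) (p : Σ a, Fin (n a)) : swP a b hab (swP a b hab p) = p := by
  obtain ⟨e, x⟩ := p
  by_cases h1 : e = a
  · subst h1
    rw [sw_a, sw_b hne]
    rfl
  · by_cases h2 : e = b
    · subst h2
      rw [sw_b hne, sw_a]
      rfl
    · rw [sw_o hab ⟨e, x⟩ h1 h2, sw_o hab ⟨e, x⟩ h1 h2]

lemma sw_iff (hne : a ≠ b) (hab : n a = n b) (p q : Σ a, Fin (n a)) : p = swP a b hab q ↔ q = swP a b hab p := by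
  constructor
  · rintro rfl
    rw [sw_sw hne]
  · rintro rfl
    rw [sw_sw hne]

lemma sw_inj (hne : a ≠ b) (hab : n a = n b) {p q : Σ a, Fin (n a)} (h : swP a b hab p = swP a b hab q) : p = q := by
  rw [← sw_sw hne hab p, h, sw_sw hne]

/-- the exchange as an equivalence -/
def swE (hne : a ≠ b) (hab : n a = n b) : (Σ a, Fin (n a)) ≃ (Σ a, Fin (n a)) where
  toFun := swP a b hab
  invFun := swP a b hab
  left_inv := sw_sw hne hab
  right_inv := sw_sw hne hab

section conj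

variable {N : ℕ} (E : (Σ a, Fin (n a)) ≃ Fin N)

lemma conj_apply (hne : a ≠ b) (hab : n a = n b) {V : Matrix (Fin N) (Fin N) ℂ} {c : ℂ} (hc : ‖c‖ = 1)
    (hV : ∀ s t, V (E s) (E t) = if s = swP a b hab t then c else 0) (X : Matrix (Fin N) (Fin N) ℂ) (s t : Σ a, Fin (n a)) :
    (V * X * V.conjTranspose) (E s) (E t) = X (E (swP a b hab s)) (E (swP a b hab t)) := by
  have h1 : ∀ y, (V * X) (E s) y = c * X (E (swP a b hab s)) y := by
    intro y
    rw [Matrix.mul_apply, ← E.sum_comp]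
    rw [Finset.sum_eq_single (swP a b hab s)]
    · rw [hV, sw_sw hne, if_pos rfl]
    · intro t _ ht
      rw [hV, if_neg, zero_mul]
      intro h
      exact ht ((sw_iff hne hab _ _).1 h)
    · intro h
      exact absurd (Finset.mem_univ _) h
  rw [Matrix.mul_apply, ← E.sum_comp]
  rw [Finset.sum_eq_single (swP a b hab t)]
  · rw [h1, Matrix.conjTranspose_apply, hV, sw_sw hne, if_pos rfl, mul_comm c, mul_assoc]
    have h2 : c * star c = 1 := by
      have h3 : c * (starRingEnd ℂ) c = ((‖c‖ ^ 2 : ℝ) : ℂ) := by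
        rw [Complex.mul_conj, Complex.normSq_eq_norm_sq]
      rw [hc, one_pow, Complex.ofReal_one] at h3
      exact h3
    rw [h2, mul_one]
  · intro u _ hu
    rw [Matrix.conjTranspose_apply, hV, if_neg, star_zero, mul_zero]
    intro h
    exact hu ((sw_iff hne hab _ _).1 h)
  · intro h
    exact absurd (Finset.mem_univ _) h

lemma trace_apply (A B : Matrix (Fin N) (Fin N) ℂ) :
    (A * B).trace = ∑ p, ∑ q, A (E p) (E q) * B (E q) (E p) := by
  rw [Matrix.trace, ← E.sum_comp]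
  refine Finset.sum_congr rfl fun p _ => ?_
  rw [Matrix.diag_apply, Matrix.mul_apply, ← E.sum_comp]

end conj

section frame

variable {N d dh dm ds dz : ℕ} {T : Fin d → Matrix (Fin N) (Fin N) ℂ} {φ : Spl dh dm d} {ψ : Spl ds dz dh}

/-- exchange of the block labels of the `s` colours -/
def swT (a b : Fin k) (hab : n a = n b) (t : Σ a, Fin (n a ^ 2 - 1)) : Σ a, Fin (n a ^ 2 - 1) :=
  if h : t.1 = a then ⟨b, Fin.cast (by rw [h, hab]) t.2⟩ else
    if h : t.1 = b then ⟨a, Fin.cast (by rw [h, hab]) t.2⟩ else t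

lemma s_apply (fr : NFr n T φ ψ) (t : Σ a, Fin (n a ^ 2 - 1)) (p q : Σ a, Fin (n a)) :
    T (φ (Sum.inl (ψ (Sum.inl (fr.es t))))) (fr.E p) (fr.E q) =
      Matrix.blockDiagonal' (Pi.single t.1 (fr.Tb (n t.1) t.2) : ∀ b, Matrix (Fin (n b)) (Fin (n b)) ℂ) p q := by
  obtain ⟨e, i⟩ := t
  rw [fr.s_eq, bk, Matrix.submatrix_apply, Equiv.symm_apply_apply, Equiv.symm_apply_apply]

lemma s_ne1 (fr : NFr n T φ ψ) (t : Σ a, Fin (n a ^ 2 - 1)) (p q : Σ a, Fin (n a)) (h : p.1 ≠ q.1) :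
    T (φ (Sum.inl (ψ (Sum.inl (fr.es t))))) (fr.E p) (fr.E q) = 0 := by
  rw [s_apply fr, Matrix.blockDiagonal'_apply, dif_neg h]

lemma s_ne2 (fr : NFr n T φ ψ) (t : Σ a, Fin (n a ^ 2 - 1)) (p q : Σ a, Fin (n a)) (h : p.1 ≠ t.1) :
    T (φ (Sum.inl (ψ (Sum.inl (fr.es t))))) (fr.E p) (fr.E q) = 0 := by
  rw [s_apply fr, Matrix.blockDiagonal'_apply]
  split_ifs with h1
  · rw [Pi.single_eq_of_ne h]
    rfl
  · rfl

lemma s_eq (fr : NFr n T φ ψ) (e : Fin k) (i : Fin (n e ^ 2 - 1)) (x y : Fin (n e)) :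
    T (φ (Sum.inl (ψ (Sum.inl (fr.es ⟨e, i⟩))))) (fr.E ⟨e, x⟩) (fr.E ⟨e, y⟩) = fr.Tb (n e) i x y := by
  rw [s_apply fr, Matrix.blockDiagonal'_apply, dif_pos rfl]
  simp only [Pi.single_eq_same]
  rfl

lemma z_apply (fr : NFr n T φ ψ) (B : Fin dz) (p q : Σ a, Fin (n a)) :
    T (φ (Sum.inl (ψ (Sum.inr B)))) (fr.E p) (fr.E q) = if p = q then ((fr.c B p.1 : ℝ) : ℂ) else 0 := by
  rw [fr.z_eq, bd, Matrix.submatrix_apply, Equiv.symm_apply_apply, Equiv.symm_apply_apply, Matrix.diagonal_apply]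

lemma h_ne (fr : NFr n T φ ψ) (A : Fin dh) (p q : Σ a, Fin (n a)) (h : p.1 ≠ q.1) :
    T (φ (Sum.inl A)) (fr.E p) (fr.E q) = 0 := by
  obtain ⟨A', rfl⟩ := ψ.surjective A
  rcases A' with A' | A'
  · obtain ⟨t, rfl⟩ := fr.es.surjective A'
    exact s_ne1 fr t p q h
  · rw [z_apply fr, if_neg]
    rintro rfl
    exact h rfl

lemma Tb_cast (Tb : ∀ m : ℕ, Fin (m ^ 2 - 1) → Matrix (Fin m) (Fin m) ℂ) {m m' : ℕ} (h : m = m') (i : Fin (m ^ 2 - 1))
    (x y : Fin m') (h1 : m ^ 2 - 1 = m' ^ 2 - 1) :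
    Tb m' (Fin.cast h1 i) x y = Tb m i (Fin.cast h.symm x) (Fin.cast h.symm y) := by
  subst h
  rfl

/-- an exchange permutes the `s` colours -/
lemma s_sw (fr : NFr n T φ ψ) (hne : a ≠ b) (hab : n a = n b) (t : Σ a, Fin (n a ^ 2 - 1)) (p q : Σ a, Fin (n a)) :
    T (φ (Sum.inl (ψ (Sum.inl (fr.es t))))) (fr.E (swP a b hab p)) (fr.E (swP a b hab q)) =
      T (φ (Sum.inl (ψ (Sum.inl (fr.es (swT a b hab t)))))) (fr.E p) (fr.E q) := by
  by_cases hpq : p.1 = q.1
  swap
  · rw [s_ne1 fr _ p q hpq, s_ne1 fr]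
    rw [sw_fst hne, sw_fst hne]
    exact fun h => hpq ((Equiv.swap a b).injective h)
  obtain ⟨e, x⟩ := p
  obtain ⟨e', y⟩ := q
  simp only at hpq
  subst hpq
  obtain ⟨f, i⟩ := t
  by_cases h1 : f = a
  · subst h1
    have h3 : swT f b hab ⟨f, i⟩ = ⟨b, Fin.cast (by rw [hab]) i⟩ := by
      unfold swT
      rw [dif_pos rfl]
    rw [h3]
    by_cases h4 : e = b
    · subst h4
      rw [sw_b hne, sw_b hne, s_eq fr, s_eq fr, Tb_cast fr.Tb hab]
    · rw [s_ne2 fr ⟨b, _⟩ ⟨e, x⟩ ⟨e, y⟩ h4, s_ne2 fr]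
      rw [sw_fst hne]
      intro h5
      apply h4
      have h6 := congrArg (Equiv.swap f b) h5
      rw [Equiv.swap_apply_self] at h6
      simpa using h6
  · by_cases h2 : f = b
    · subst h2
      have h3 : swT a f hab ⟨f, i⟩ = ⟨a, Fin.cast (by rw [hab]) i⟩ := by
        unfold swT
        rw [dif_neg (show ¬ (⟨f, i⟩ : Σ a, Fin (n a ^ 2 - 1)).1 = a from h1), dif_pos rfl]
      rw [h3]
      by_cases h4 : e = a
      · subst h4
        rw [sw_a, sw_a, s_eq fr, s_eq fr, Tb_cast fr.Tb hab.symm]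
      · rw [s_ne2 fr ⟨a, _⟩ ⟨e, x⟩ ⟨e, y⟩ h4, s_ne2 fr]
        rw [sw_fst hne]
        intro h5
        apply h4
        have h6 := congrArg (Equiv.swap a f) h5
        rw [Equiv.swap_apply_self] at h6
        simpa using h6
    · have h3 : swT a b hab ⟨f, i⟩ = ⟨f, i⟩ := by
        unfold swT
        rw [dif_neg (show ¬ (⟨f, i⟩ : Σ a, Fin (n a ^ 2 - 1)).1 = a from h1),
          dif_neg (show ¬ (⟨f, i⟩ : Σ a, Fin (n a ^ 2 - 1)).1 = b from h2)]
      rw [h3]
      by_cases h4 : e = f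
      · subst h4
        rw [sw_o hab _ h1 h2, sw_o hab _ h1 h2]
      · rw [s_ne2 fr ⟨f, i⟩ ⟨e, x⟩ ⟨e, y⟩ h4, s_ne2 fr]
        rw [sw_fst hne]
        intro h5
        apply h4
        have h6 := congrArg (Equiv.swap a b) h5
        rw [Equiv.swap_apply_self] at h6
        simp only at h6
        rw [h6, Equiv.swap_apply_of_ne_of_ne h1 h2]

lemma z_sw (fr : NFr n T φ ψ) (hne : a ≠ b) (hab : n a = n b) (B : Fin dz) (p q : Σ a, Fin (n a)) :
    T (φ (Sum.inl (ψ (Sum.inr B)))) (fr.E (swP a b hab p)) (fr.E (swP a b hab q)) =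
      if p = q then ((fr.c B (Equiv.swap a b p.1) : ℝ) : ℂ) else 0 := by
  rw [z_apply fr, sw_fst hne]
  by_cases h : p = q
  · subst h
    rw [if_pos rfl, if_pos rfl]
  · rw [if_neg h, if_neg]
    exact fun h1 => h (sw_inj hne hab h1)

/-- the adjoint matrix of an exchange -/
lemma ad_eq (fr : NFr n T φ ψ) (hne : a ≠ b) (hab : n a = n b) {V : BFSS.SU N} {c : ℂ} (hc : ‖c‖ = 1)
    (hV : ∀ s t, V.val (fr.E s) (fr.E t) = if s = swP a b hab t then c else 0) (B A : Fin d) :
    adO T V B A = (∑ p, ∑ q, T B (fr.E p) (fr.E q) * T A (fr.E (swP a b hab q)) (fr.E (swP a b hab p))).re := by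
  rw [adO, Matrix.of_apply, BFSS.adCoeff, trace_apply fr.E]
  congr 1
  refine Finset.sum_congr rfl fun p _ => Finset.sum_congr rfl fun q _ => ?_
  rw [conj_apply fr.E hne hab hc hV]

lemma ad_symm (fr : NFr n T φ ψ) (hne : a ≠ b) (hab : n a = n b) {V : BFSS.SU N} {c : ℂ} (hc : ‖c‖ = 1)
    (hV : ∀ s t, V.val (fr.E s) (fr.E t) = if s = swP a b hab t then c else 0) (B A : Fin d) :
    adO T V B A = (∑ p, ∑ q, T B (fr.E (swP a b hab p)) (fr.E (swP a b hab q)) * T A (fr.E q) (fr.E p)).re := by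
  rw [ad_eq fr hne hab hc hV]
  congr 1
  rw [← (swE hne hab).sum_comp]
  refine Finset.sum_congr rfl fun p _ => ?_
  rw [← (swE hne hab).sum_comp]
  refine Finset.sum_congr rfl fun q _ => ?_
  change T B (fr.E (swP a b hab p)) (fr.E (swP a b hab q)) *
    T A (fr.E (swP a b hab (swP a b hab q))) (fr.E (swP a b hab (swP a b hab p))) = _
  rw [sw_sw hne, sw_sw hne]

end frame

end Sw518

open Sw518 in
/-- **NF-Sw** -/
theorem sw_stmt {N d dh dm ds dz k : ℕ} {n : Fin k → ℕ} {T : Fin d → Matrix (Fin N) (Fin N) ℂ} {φ : Spl dh dm d}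
    {ψ : Spl ds dz dh} (f : Fin d → Fin d → Fin d → ℝ) (fr : NFr n T φ ψ) (hVal : ValStmt f fr) : SwStmt f fr := by
  intro hB a b hne hab V c hc hV
  have hT : ∀ A B, ∑ p, ∑ q, T A (fr.E p) (fr.E q) * T B (fr.E q) (fr.E p) = if A = B then 1 else 0 := by
    intro A B
    rw [← trace_apply fr.E, hB.ortho]
  -- action on the `s` colours
  have hs : ∀ (B : Fin d) (t : Σ a, Fin (n a ^ 2 - 1)), adO T V B (φ (Sum.inl (ψ (Sum.inl (fr.es t))))) =
      if B = φ (Sum.inl (ψ (Sum.inl (fr.es (swT a b hab t))))) then 1 else 0 := by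
    intro B t
    rw [ad_eq fr hne hab hc hV]
    simp only [s_sw fr hne hab]
    rw [hT]
    split_ifs <;> simp
  have hs' : ∀ (A : Fin d) (t : Σ a, Fin (n a ^ 2 - 1)), adO T V (φ (Sum.inl (ψ (Sum.inl (fr.es t))))) A =
      if φ (Sum.inl (ψ (Sum.inl (fr.es (swT a b hab t))))) = A then 1 else 0 := by
    intro A t
    rw [ad_symm fr hne hab hc hV]
    simp only [s_sw fr hne hab]
    rw [hT]
    split_ifs <;> simp
  have hBlk : Blk φ ψ (adO T V) := by
    refine ⟨?_, ?_, ?_, ?_⟩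
    · intro A B
      rw [ad_eq fr hne hab hc hV, Finset.sum_eq_zero, Complex.zero_re]
      intro p _
      refine Finset.sum_eq_zero fun q _ => ?_
      by_cases h : p.1 = q.1
      · rw [fr.m_eq B, mul_zero]
        rw [sw_fst hne, sw_fst hne, h]
      · rw [h_ne fr A p q h, zero_mul]
    · intro A B
      rw [ad_eq fr hne hab hc hV, Finset.sum_eq_zero, Complex.zero_re]
      intro p _
      refine Finset.sum_eq_zero fun q _ => ?_
      by_cases h : p.1 = q.1
      · rw [fr.m_eq B p q h, zero_mul]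
      · rw [h_ne fr A, mul_zero]
        rw [sw_fst hne, sw_fst hne]
        exact fun h1 => h ((Equiv.swap a b).injective h1).symm
    · intro A B
      obtain ⟨t, rfl⟩ := fr.es.surjective A
      rw [hs', if_neg]
      intro h
      have h1 := ψ.injective (Sum.inl.inj (φ.injective h))
      exact absurd h1 (by simp)
    · intro A B
      obtain ⟨t, rfl⟩ := fr.es.surjective A
      rw [hs, if_neg]
      intro h
      have h1 := ψ.injective (Sum.inl.inj (φ.injective h))
      exact absurd h1 (by simp)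
  refine ⟨hBlk, ?_, ?_⟩
  · obtain ⟨-, hv2, -, -, hv5⟩ := hVal hB
    -- orthonormality of the `c`
    have hsg : ∀ g : Fin k → ℝ, ∑ p : (Σ a, Fin (n a)), g p.1 = ∑ e, (n e : ℝ) * g e := by
      intro g
      rw [Fintype.sum_sigma]
      refine Finset.sum_congr rfl fun e _ => ?_
      change ∑ _y : Fin (n e), g e = _
      rw [Finset.sum_const, Finset.card_univ, Fintype.card_fin, nsmul_eq_mul]
    have hcc : ∀ B B', ∑ e, (n e : ℝ) * (fr.c B e * fr.c B' e) = if B = B' then 1 else 0 := by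
      intro B B'
      have h1 := hT (φ (Sum.inl (ψ (Sum.inr B)))) (φ (Sum.inl (ψ (Sum.inr B'))))
      simp only [z_apply fr] at h1
      have h2 : ∀ p : (Σ a, Fin (n a)), ∑ q, (if p = q then ((fr.c B p.1 : ℝ) : ℂ) else 0) *
          (if q = p then ((fr.c B' q.1 : ℝ) : ℂ) else 0) = ((fr.c B p.1 * fr.c B' p.1 : ℝ) : ℂ) := by
        intro p
        rw [Finset.sum_eq_single p]
        · rw [if_pos rfl, if_pos rfl, Complex.ofReal_mul]
        · intro q _ hq
          rw [if_neg (Ne.symm hq), zero_mul]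
        · intro h
          exact absurd (Finset.mem_univ _) h
      rw [Finset.sum_congr rfl fun p _ => h2 p, ← Complex.ofReal_sum, hsg (fun e => fr.c B e * fr.c B' e)] at h1
      simp only [EmbeddingLike.apply_eq_iff_eq, Sum.inl.injEq, Sum.inr.injEq] at h1
      split_ifs at h1 ⊢ with h3
      · exact_mod_cast h1
      · exact_mod_cast h1
    have hz : ∀ B B', zO φ ψ (adO T V) B B' = ∑ e, (n e : ℝ) * (fr.c B e * fr.c B' (Equiv.swap a b e)) := by
      intro B B'
      rw [zO, Matrix.of_apply, ad_eq fr hne hab hc hV]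
      simp only [z_sw fr hne hab, z_apply fr]
      have h2 : ∀ p : (Σ a, Fin (n a)), ∑ q, (if p = q then ((fr.c B p.1 : ℝ) : ℂ) else 0) *
          (if q = p then ((fr.c B' (Equiv.swap a b q.1) : ℝ) : ℂ) else 0) =
          ((fr.c B p.1 * fr.c B' (Equiv.swap a b p.1) : ℝ) : ℂ) := by
        intro p
        rw [Finset.sum_eq_single p]
        · rw [if_pos rfl, if_pos rfl, Complex.ofReal_mul]
        · intro q _ hq
          rw [if_neg (Ne.symm hq), zero_mul]
        · intro h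
          exact absurd (Finset.mem_univ _) h
      rw [Finset.sum_congr rfl fun p _ => h2 p, ← Complex.ofReal_sum,
        hsg (fun e => fr.c B e * fr.c B' (Equiv.swap a b e)), Complex.ofReal_re]
    have hnsw : ∀ e, n (Equiv.swap a b e) = n e := by
      intro e
      by_cases h1 : e = a
      · subst h1
        rw [Equiv.swap_apply_left, hab]
      · by_cases h2 : e = b
        · subst h2
          rw [Equiv.swap_apply_right, hab]
        · rw [Equiv.swap_apply_of_ne_of_ne h1 h2]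
    have hkey : ∀ B' e, ∑ B, zO φ ψ (adO T V) B B' * fr.c B e = fr.c B' (Equiv.swap a b e) := by
      intro B' e
      obtain ⟨η, hη⟩ := hv2 (fun _ e => fr.c B' (Equiv.swap a b e)) (by
        intro i
        rw [← hv5 B', ← Equiv.sum_comp (Equiv.swap a b) (fun e => (n e : ℝ) * fr.c B' e)]
        exact Finset.sum_congr rfl fun e _ => by rw [hnsw])
      have h1 : ∀ B, zO φ ψ (adO T V) B B' = η (0, B) := by
        intro B
        rw [hz]
        have h2 : ∀ e, fr.c B' (Equiv.swap a b e) = ∑ B'', η (0, B'') * fr.c B'' e := fun e => (hη 0 e).symm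
        simp only [h2, Finset.mul_sum]
        rw [Finset.sum_comm]
        have h3 : ∀ B'', ∑ e, (n e : ℝ) * (fr.c B e * (η (0, B'') * fr.c B'' e)) =
            η (0, B'') * if B = B'' then 1 else 0 := by
          intro B''
          rw [← hcc, Finset.mul_sum]
          exact Finset.sum_congr rfl fun e _ => by ring
        rw [Finset.sum_congr rfl fun B'' _ => h3 B'']
        simp
      rw [Finset.sum_congr rfl fun B _ => by rw [h1 B]]
      exact hη 0 e
    intro η i e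
    have h1 : ∀ B, ro (zO φ ψ (adO T V)) η (i, B) = ∑ B', zO φ ψ (adO T V) B B' * η (i, B') := fun B => rfl
    rw [NFr.val, NFr.val]
    simp only [h1, Finset.sum_mul]
    rw [Finset.sum_comm]
    refine Finset.sum_congr rfl fun B' _ => ?_
    rw [← hkey B' e, Finset.mul_sum]
    exact Finset.sum_congr rfl fun B _ => by ring
  · intro s t
    rw [sO, Matrix.of_apply, hs]
    have h1 : (φ (Sum.inl (ψ (Sum.inl (fr.es s)))) = φ (Sum.inl (ψ (Sum.inl (fr.es (swT a b hab t)))))) ↔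
        s = swT a b hab t := by
      simp only [EmbeddingLike.apply_eq_iff_eq, Sum.inl.injEq]
    simp only [h1]
    rfl

end ANF

end Vale.Agent.P353.Z
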