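import Vale.Agent.P353.AN.NF.Reg
import Vale.Agent.P353.AN.NF.Sw

/-! # P353, all `N`, block NF: normaliser elements (`NrmStmt`) -/

open MeasureTheory Filter Topology Matrix
open scoped ContDiff

namespace Vale.Agent.P353.Z.ANF

namespace Nrm687

section bdl

variable {N k : ℕ} {n : Fin k → ℕ} (E : (Σ a, Fin (n a)) ≃ Fin N)

lemma ext_E {X Y : Matrix (Fin N) (Fin N) ℂ} (h : ∀ s t, X (E s) (E t) = Y (E s) (E t)) : X = Y := by
  ext p q
  obtain ⟨s, rfl⟩ := E.surjective p
  obtain ⟨t, rfl⟩ := E.surjective q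
  exact h s t

lemma bd_add (v w : Fin k → ℂ) : bd E (fun a => v a + w a) = bd E v + bd E w := by
  refine ext_E E fun s t => ?_
  rw [Matrix.add_apply, nr775_bd, nr775_bd, nr775_bd]
  split_ifs <;> simp

lemma bd_smul (r : ℂ) (v : Fin k → ℂ) : bd E (fun a => r * v a) = r • bd E v := by
  refine ext_E E fun s t => ?_
  rw [Matrix.smul_apply, nr775_bd, nr775_bd]
  split_ifs <;> simp

lemma bd_one : bd E (fun _ => (1 : ℂ)) = 1 := by
  refine ext_E E fun s t => ?_
  rw [nr775_bd, Matrix.one_apply]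
  simp only [EmbeddingLike.apply_eq_iff_eq]

lemma bd_zero : bd E (fun _ => (0 : ℂ)) = 0 := by
  refine ext_E E fun s t => ?_
  rw [nr775_bd]
  simp

lemma bd_sum {ι : Type*} (u : Finset ι) (v : ι → Fin k → ℂ) : bd E (fun a => ∑ i ∈ u, v i a) = ∑ i ∈ u, bd E (v i) := by
  refine ext_E E fun s t => ?_
  rw [Matrix.sum_apply, nr775_bd]
  simp only [nr775_bd]
  split_ifs <;> simp

lemma bd_mul (v w : Fin k → ℂ) : bd E v * bd E w = bd E (fun a => v a * w a) := by
  refine ext_E E fun s t => ?_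
  rw [Matrix.mul_apply, ← E.sum_comp]
  simp only [nr775_bd]
  by_cases h : s = t
  · subst h
    simp
  · simp [h]

lemma bd_inj (hpos : ∀ a, 1 ≤ n a) {v w : Fin k → ℂ} (h : bd E v = bd E w) (a : Fin k) : v a = w a := by
  have h1 := congrFun (congrFun h (E ⟨a, ⟨0, hpos a⟩⟩)) (E ⟨a, ⟨0, hpos a⟩⟩)
  rw [nr775_bd, nr775_bd, if_pos rfl, if_pos rfl] at h1
  exact h1

lemma bd_tr (v : Fin k → ℂ) : (bd E v).trace = ∑ a, (n a : ℂ) * v a := by
  rw [Matrix.trace, ← E.sum_comp]
  simp only [Matrix.diag_apply, nr775_bd, if_true]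
  rw [Fintype.sum_sigma]
  refine Finset.sum_congr rfl fun a _ => ?_
  change ∑ _y : Fin (n a), v a = _
  rw [Finset.sum_const, Finset.card_univ, Fintype.card_fin, nsmul_eq_mul]

/-- block projection -/
noncomputable def pj (a : Fin k) : Matrix (Fin N) (Fin N) ℂ := bd E fun b => if b = a then 1 else 0

lemma pj_sum : ∑ a, pj E a = 1 := by
  unfold pj
  rw [← bd_sum, ← bd_one E]
  congr 1
  funext b
  simp

lemma pj_mul (a b : Fin k) : pj E a * pj E b = if a = b then pj E a else 0 := by
  unfold pj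
  rw [bd_mul]
  split_ifs with h
  · subst h
    congr 1
    funext c
    simp
  · rw [← bd_zero E]
    congr 1
    funext c
    by_cases h1 : c = a
    · subst h1
      simp [h]
    · simp [h1]

lemma pj_tr (a : Fin k) : (pj E a).trace = n a := by
  unfold pj
  rw [bd_tr]
  simp

include E in
lemma sum_n : ∑ a, n a = N := by
  have h := Fintype.card_congr E
  rw [Fintype.card_sigma, Fintype.card_fin] at h
  simpa using h

end bdl

section unit

variable {N : ℕ}

lemma su1 (V : BFSS.SU N) : V.val * V.val.conjTranspose = 1 := by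
  have h := V.2
  rw [Matrix.mem_specialUnitaryGroup_iff] at h
  exact Matrix.mem_unitaryGroup_iff.1 h.1

lemma su2 (V : BFSS.SU N) : V.val.conjTranspose * V.val = 1 := by
  have h := V.2
  rw [Matrix.mem_specialUnitaryGroup_iff] at h
  exact Matrix.mem_unitaryGroup_iff'.1 h.1

lemma cj_mul (V : BFSS.SU N) (X Y : Matrix (Fin N) (Fin N) ℂ) :
    (V.val * X * V.val.conjTranspose) * (V.val * Y * V.val.conjTranspose) = V.val * (X * Y) * V.val.conjTranspose := by
  calc (V.val * X * V.val.conjTranspose) * (V.val * Y * V.val.conjTranspose)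
      = V.val * X * (V.val.conjTranspose * V.val) * Y * V.val.conjTranspose := by simp only [Matrix.mul_assoc]
    _ = _ := by rw [su2, Matrix.mul_one]; simp only [Matrix.mul_assoc]

lemma cj_tr (V : BFSS.SU N) (X : Matrix (Fin N) (Fin N) ℂ) : (V.val * X * V.val.conjTranspose).trace = X.trace := by
  rw [Matrix.mul_assoc, Matrix.trace_mul_comm, Matrix.mul_assoc, su2, Matrix.mul_one]

lemma cj_inj (V : BFSS.SU N) {X : Matrix (Fin N) (Fin N) ℂ} (h : V.val * X * V.val.conjTranspose = 0) : X = 0 := by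
  calc X = (V.val.conjTranspose * V.val) * X * (V.val.conjTranspose * V.val) := by rw [su2]; simp
    _ = V.val.conjTranspose * (V.val * X * V.val.conjTranspose) * V.val := by simp only [Matrix.mul_assoc]
    _ = 0 := by rw [h]; simp

end unit

section fr

variable {N d dh dm ds dz k : ℕ} {n : Fin k → ℕ} {T : Fin d → Matrix (Fin N) (Fin N) ℂ} {φ : Spl dh dm d} {ψ : Spl ds dz dh}

lemma ad_c {f : Fin d → Fin d → Fin d → ℝ} (hB : Bas N d T f) (V : BFSS.SU N) (A B : Fin d) :
    (T A * (V.val * T B * V.val.conjTranspose)).trace = ((adO T V A B : ℝ) : ℂ) := by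
  have h : star (T A * (V.val * T B * V.val.conjTranspose)).trace = (T A * (V.val * T B * V.val.conjTranspose)).trace := by
    rw [← Matrix.trace_conjTranspose, Matrix.conjTranspose_mul, hB.herm, Matrix.conjTranspose_mul, Matrix.conjTranspose_mul,
      Matrix.conjTranspose_conjTranspose, hB.herm, Matrix.trace_mul_comm, Matrix.mul_assoc]
  rw [adO, Matrix.of_apply, BFSS.adCoeff]
  exact (Complex.conj_eq_iff_re.1 h).symm

lemma z_conj {f : Fin d → Fin d → Fin d → ℝ} (hB : Bas N d T f) (fr : NFr n T φ ψ) (hN : 0 < N) (V : BFSS.SU N)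
    (hV : Blk φ ψ (adO T V)) (B : Fin dz) :
    ∃ w : Fin k → ℂ, V.val * T (φ (Sum.inl (ψ (Sum.inr B)))) * V.val.conjTranspose = bd fr.E w := by
  refine ⟨fun a => ∑ B', ((adO T V (φ (Sum.inl (ψ (Sum.inr B')))) (φ (Sum.inl (ψ (Sum.inr B)))) : ℝ) : ℂ) * ((fr.c B' a : ℝ) : ℂ), ?_⟩
  rw [nr775_complete hB hN (V.val * T (φ (Sum.inl (ψ (Sum.inr B)))) * V.val.conjTranspose), cj_tr, hB.tr0, zero_div, zero_smul,
    add_zero]
  simp only [ad_c hB]
  rw [← φ.sum_comp, Fintype.sum_sum_type, ← ψ.sum_comp, Fintype.sum_sum_type]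
  simp only [hV.mh, hV.sz, Complex.ofReal_zero, zero_smul, Finset.sum_const_zero, zero_add, add_zero]
  rw [bd_sum]
  refine Finset.sum_congr rfl fun B' _ => ?_
  rw [bd_smul, fr.z_eq]

lemma v_conj {f : Fin d → Fin d → Fin d → ℝ} (hB : Bas N d T f) (fr : NFr n T φ ψ) (hVal : ValStmt f fr) (hN : 0 < N)
    (V : BFSS.SU N) (hV : Blk φ ψ (adO T V)) (v : Fin k → ℝ) :
    ∃ w : Fin k → ℂ, V.val * bd fr.E (fun a => ((v a : ℝ) : ℂ)) * V.val.conjTranspose = bd fr.E w := by
  obtain ⟨-, h2, -, -, -⟩ := hVal hB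
  have hsn : ∑ a, (n a : ℝ) = N := by
    have h := sum_n fr.E
    exact_mod_cast h
  have hN' : (N : ℝ) ≠ 0 := by exact_mod_cast hN.ne'
  set m : ℝ := (∑ a, (n a : ℝ) * v a) / N with hm
  obtain ⟨η, hη⟩ := h2 (fun _ a => v a - m) (by
    intro i
    simp only [mul_sub, Finset.sum_sub_distrib, ← Finset.sum_mul, hsn]
    rw [hm]
    field_simp
    ring)
  have hz := fun B => z_conj hB fr hN V hV B
  choose w hw using hz
  refine ⟨fun a => (∑ B, ((η (0, B) : ℝ) : ℂ) * w B a) + (m : ℂ) * 1, ?_⟩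
  have h3 : bd fr.E (fun a => ((v a : ℝ) : ℂ)) =
      (∑ B, ((η (0, B) : ℝ) : ℂ) • T (φ (Sum.inl (ψ (Sum.inr B))))) + (m : ℂ) • 1 := by
    simp only [fr.z_eq]
    rw [← bd_one fr.E, ← bd_smul]
    simp only [← bd_smul]
    rw [← bd_sum, ← bd_add]
    congr 1
    funext a
    have h4 : v a = (∑ B, η (0, B) * fr.c B a) + m := by
      have h5 := hη 0 a
      unfold NFr.val at h5
      linarith
    conv_lhs => rw [h4]
    push_cast
    ring
  rw [h3, Matrix.mul_add, Matrix.add_mul, Finset.mul_sum, Finset.sum_mul, bd_add, bd_sum]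
  congr 1
  · refine Finset.sum_congr rfl fun B _ => ?_
    rw [Matrix.mul_smul, Matrix.smul_mul, hw, bd_smul]
  · rw [Matrix.mul_smul, Matrix.smul_mul, Matrix.mul_one, su1, bd_smul, bd_one]

/-- a block preserving element permutes the block projections -/
lemma ex_perm {f : Fin d → Fin d → Fin d → ℝ} (hB : Bas N d T f) (fr : NFr n T φ ψ) (hVal : ValStmt f fr) (hN : 0 < N)
    (V : BFSS.SU N) (hV : Blk φ ψ (adO T V)) :
    ∃ τ : Equiv.Perm (Fin k), ∀ a, V.val * pj fr.E a * V.val.conjTranspose = pj fr.E (τ a) := by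
  have h1 : ∀ a, ∃ w : Fin k → ℂ, V.val * pj fr.E a * V.val.conjTranspose = bd fr.E w := by
    intro a
    obtain ⟨w, hw⟩ := v_conj hB fr hVal hN V hV (fun b => if b = a then 1 else 0)
    refine ⟨w, ?_⟩
    rw [← hw]
    unfold pj
    congr 3
    funext b
    split_ifs <;> simp
  choose w hw using h1
  have hmul : ∀ a b, (fun c => w a c * w b c) = if a = b then w a else 0 := by
    intro a b
    funext c
    have h2 : bd fr.E (fun c => w a c * w b c) = bd fr.E (if a = b then w a else 0) := by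
      rw [← bd_mul, ← hw, ← hw, cj_mul, pj_mul]
      split_ifs with h
      · rw [hw]
      · rw [Matrix.mul_zero, Matrix.zero_mul]
        exact (bd_zero fr.E).symm
    exact bd_inj fr.E fr.pos h2 c
  have hsum : ∀ c, ∑ a, w a c = 1 := by
    have h2 : bd fr.E (fun c => ∑ a, w a c) = bd fr.E (fun _ => 1) := by
      rw [bd_sum, bd_one]
      simp only [← hw]
      rw [← Finset.sum_mul, ← Finset.mul_sum, pj_sum, Matrix.mul_one, su1]
    exact fun c => bd_inj fr.E fr.pos h2 c
  have hne : ∀ a, ∃ c, w a c ≠ 0 := by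
    intro a
    by_contra hcon
    push Not at hcon
    have h2 : V.val * pj fr.E a * V.val.conjTranspose = 0 := by
      rw [hw, ← bd_zero fr.E]
      congr 1
      funext c
      exact hcon c
    have h3 := cj_inj V h2
    have h4 := congrArg Matrix.trace h3
    rw [pj_tr, Matrix.trace_zero] at h4
    have h5 := fr.pos a
    have h6 : n a = 0 := by exact_mod_cast h4
    omega
  have hex : ∀ c, ∃ a, w a c ≠ 0 := by
    intro c
    by_contra hcon
    push Not at hcon
    have h2 := hsum c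
    rw [Finset.sum_eq_zero fun a _ => hcon a] at h2
    exact zero_ne_one h2
  choose g hg using hex
  have hg2 : ∀ c a, w a c = if a = g c then 1 else 0 := by
    intro c a
    split_ifs with h
    · subst h
      have h3 := congrFun (hmul (g c) (g c)) c
      rw [if_pos rfl] at h3
      exact mul_right_cancel₀ (hg c) (by rw [one_mul]; exact h3)
    · have h3 := congrFun (hmul a (g c)) c
      rw [if_neg h] at h3
      exact (mul_eq_zero.1 h3).resolve_right (hg c)
  have hsurj : Function.Surjective g := by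
    intro a
    obtain ⟨c, hc⟩ := hne a
    refine ⟨c, ?_⟩
    by_contra hcon
    rw [hg2, if_neg (fun h => hcon h.symm)] at hc
    exact hc rfl
  have hbij : Function.Bijective g := ⟨Finite.injective_iff_surjective.2 hsurj, hsurj⟩
  refine ⟨(Equiv.ofBijective g hbij).symm, fun a => ?_⟩
  rw [hw]
  unfold pj
  congr 1
  funext c
  rw [hg2]
  have h5 : (a = g c) ↔ c = (Equiv.ofBijective g hbij).symm a := by
    rw [Equiv.eq_symm_apply]
    exact eq_comm
  simp only [h5]

/-- `V` fixing the block projections is block preserving with trivial central part -/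
lemma base {f : Fin d → Fin d → Fin d → ℝ} (hB : Bas N d T f) (fr : NFr n T φ ψ) (V : BFSS.SU N)
    (hV : ∀ a, V.val * pj fr.E a * V.val.conjTranspose = pj fr.E a) :
    Blk φ ψ (adO T V) ∧ zO φ ψ (adO T V) = 1 := by
  have hc : ∀ a, V.val * pj fr.E a = pj fr.E a * V.val := by
    intro a
    calc V.val * pj fr.E a = V.val * pj fr.E a * (V.val.conjTranspose * V.val) := by rw [su2, Matrix.mul_one]
      _ = (V.val * pj fr.E a * V.val.conjTranspose) * V.val := by simp only [Matrix.mul_assoc]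
      _ = _ := by rw [hV]
  have hVd : NrBD fr.E V.val := by
    intro s t hst
    have h1 := congrFun (congrFun (hc t.1) (fr.E s)) (fr.E t)
    rw [Matrix.mul_apply, Matrix.mul_apply, ← fr.E.sum_comp, ← fr.E.sum_comp (fun x => pj fr.E t.1 (fr.E s) x * _)] at h1
    unfold pj at h1
    simp only [nr775_bd] at h1
    rw [Finset.sum_eq_single t, Finset.sum_eq_single s] at h1
    · simpa [hst] using h1
    · intro b _ hb
      simp [Ne.symm hb]
    · simp
    · intro b _ hb
      simp [hb]
    · simp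
  have hVd' : NrBD fr.E V.val.conjTranspose := by
    intro s t hst
    rw [Matrix.conjTranspose_apply, hVd t s (fun h => hst h.symm), star_zero]
  have hod : ∀ {X : Matrix (Fin N) (Fin N) ℂ}, NrOD fr.E X → ∀ {Y}, NrBD fr.E Y → NrOD fr.E (Y * X) := by
    intro X hX Y hY s t hst
    rw [Matrix.mul_apply, ← fr.E.sum_comp]
    refine Finset.sum_eq_zero fun r _ => ?_
    by_cases h1 : s.1 = r.1
    · rw [hX r t (h1.symm.trans hst), mul_zero]
    · rw [hY s r h1, zero_mul]
  have hod' : ∀ {X : Matrix (Fin N) (Fin N) ℂ}, NrOD fr.E X → ∀ {Y}, NrBD fr.E Y → NrOD fr.E (X * Y) := by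
    intro X hX Y hY s t hst
    rw [Matrix.mul_apply, ← fr.E.sum_comp]
    refine Finset.sum_eq_zero fun r _ => ?_
    by_cases h1 : r.1 = t.1
    · rw [hX s r (hst.trans h1.symm), zero_mul]
    · rw [hY r t h1, mul_zero]
  have hm : ∀ C, NrOD fr.E (T (φ (Sum.inr C))) := fun C => fr.m_eq C
  have hz : ∀ B, V.val * T (φ (Sum.inl (ψ (Sum.inr B)))) * V.val.conjTranspose = T (φ (Sum.inl (ψ (Sum.inr B)))) := by
    intro B
    have h1 : T (φ (Sum.inl (ψ (Sum.inr B)))) = ∑ a, ((fr.c B a : ℝ) : ℂ) • pj fr.E a := by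
      rw [fr.z_eq]
      unfold pj
      simp only [← bd_smul]
      rw [← bd_sum]
      congr 1
      funext b
      simp
    rw [h1, Finset.mul_sum, Finset.sum_mul]
    refine Finset.sum_congr rfl fun a _ => ?_
    rw [Matrix.mul_smul, Matrix.smul_mul, hV]
  have hz' : ∀ B, V.val.conjTranspose * T (φ (Sum.inl (ψ (Sum.inr B)))) * V.val = T (φ (Sum.inl (ψ (Sum.inr B)))) := by
    intro B
    conv_lhs => rw [← hz B]
    calc V.val.conjTranspose * (V.val * T (φ (Sum.inl (ψ (Sum.inr B)))) * V.val.conjTranspose) * V.val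
        = (V.val.conjTranspose * V.val) * T (φ (Sum.inl (ψ (Sum.inr B)))) * (V.val.conjTranspose * V.val) := by
          simp only [Matrix.mul_assoc]
      _ = _ := by rw [su2, Matrix.one_mul, Matrix.mul_one]
  refine ⟨⟨fun A B => ?_, fun A B => ?_, fun A B => ?_, fun A B => ?_⟩, ?_⟩
  · have h1 := ad_c hB V (φ (Sum.inl A)) (φ (Sum.inr B))
    rw [nr775_tr (nr775_h fr A) (hod' (hod (hm B) hVd) hVd')] at h1
    exact_mod_cast h1.symm
  · have h1 := ad_c hB V (φ (Sum.inr B)) (φ (Sum.inl A))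
    rw [Matrix.trace_mul_comm, nr775_tr (nr775_BDmul (nr775_BDmul hVd (nr775_h fr A)) hVd') (hm B)] at h1
    exact_mod_cast h1.symm
  · have h1 := ad_c hB V (φ (Sum.inl (ψ (Sum.inl A)))) (φ (Sum.inl (ψ (Sum.inr B))))
    rw [hz, hB.ortho, if_neg (by simp)] at h1
    exact_mod_cast h1.symm
  · have h1 := ad_c hB V (φ (Sum.inl (ψ (Sum.inr B)))) (φ (Sum.inl (ψ (Sum.inl A))))
    have h2 : (T (φ (Sum.inl (ψ (Sum.inr B)))) * (V.val * T (φ (Sum.inl (ψ (Sum.inl A)))) * V.val.conjTranspose)).trace =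
        ((V.val.conjTranspose * T (φ (Sum.inl (ψ (Sum.inr B)))) * V.val) * T (φ (Sum.inl (ψ (Sum.inl A))))).trace := by
      rw [← Matrix.mul_assoc, Matrix.trace_mul_comm]
      simp only [Matrix.mul_assoc]
    rw [h2, hz', hB.ortho, if_neg (by simp)] at h1
    exact_mod_cast h1.symm
  · ext A B
    have h1 := ad_c hB V (φ (Sum.inl (ψ (Sum.inr A)))) (φ (Sum.inl (ψ (Sum.inr B))))
    rw [hz, hB.ortho] at h1
    rw [zO, Matrix.of_apply, Matrix.one_apply]
    simp only [EmbeddingLike.apply_eq_iff_eq, Sum.inl.injEq, Sum.inr.injEq] at h1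
    split_ifs at h1 ⊢ with h
    · exact_mod_cast h1.symm
    · exact_mod_cast h1.symm

/-- exchanges exist in `SU(N)` -/
lemma ex_swap (E : (Σ a, Fin (n a)) ≃ Fin N) (hN : 0 < N) {a b : Fin k} (hne : a ≠ b) (hab : n a = n b) :
    ∃ (V : BFSS.SU N) (c : ℂ), ‖c‖ = 1 ∧ ∀ s t, V.val (E s) (E t) = if s = swP a b hab t then c else 0 := by
  let π : Equiv.Perm (Fin N) := (E.symm.trans (Sw518.swE hne hab)).trans E
  obtain ⟨c, hc, hcN⟩ : ∃ c : ℂ, ‖c‖ = 1 ∧ c ^ N * ((Equiv.Perm.sign π : ℤ) : ℂ) = 1 := by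
    rcases Int.units_eq_one_or (Equiv.Perm.sign π) with h | h
    · exact ⟨1, by simp, by rw [h]; simp⟩
    · refine ⟨Complex.exp ((Real.pi / N : ℝ) * Complex.I), ?_, ?_⟩
      · rw [Complex.norm_exp_ofReal_mul_I]
      · rw [h, ← Complex.exp_nat_mul]
        have h1 : (N : ℂ) * (((Real.pi / N : ℝ) : ℂ) * Complex.I) = Real.pi * Complex.I := by
          have : (N : ℂ) ≠ 0 := by exact_mod_cast hN.ne'
          push_cast
          field_simp
        rw [h1, Complex.exp_pi_mul_I]
        simp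
  let W : Matrix (Fin N) (Fin N) ℂ := c • π.permMatrix ℂ
  have hW : ∀ s t, W (E s) (E t) = if s = swP a b hab t then c else 0 := by
    intro s t
    change (c • π.permMatrix ℂ) (E s) (E t) = _
    rw [Matrix.smul_apply, Equiv.Perm.permMatrix, PEquiv.toMatrix_apply]
    have h1 : (E t ∈ π.toPEquiv (E s)) ↔ s = swP a b hab t := by
      rw [Equiv.toPEquiv_apply, Option.mem_some_iff]
      change E (swP a b hab (E.symm (E s))) = E t ↔ _
      rw [Equiv.symm_apply_apply, EmbeddingLike.apply_eq_iff_eq, Sw518.sw_iff hne hab s t]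
      exact eq_comm
    simp only [h1]
    split_ifs <;> simp
  have hu : W * W.conjTranspose = 1 := by
    refine ext_E E fun s t => ?_
    have h1 := Sw518.conj_apply E hne hab hc hW 1 s t
    rw [Matrix.mul_one] at h1
    rw [h1, Matrix.one_apply, Matrix.one_apply]
    have h2 : (E (swP a b hab s) = E (swP a b hab t)) ↔ E s = E t := by
      rw [EmbeddingLike.apply_eq_iff_eq, EmbeddingLike.apply_eq_iff_eq]
      exact ⟨fun h => Sw518.sw_inj hne hab h, fun h => by rw [h]⟩
    simp only [h2]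
  have hd : W.det = 1 := by
    change (c • π.permMatrix ℂ).det = 1
    rw [Matrix.det_smul, Fintype.card_fin, Matrix.det_permutation]
    exact hcN
  exact ⟨⟨W, Matrix.mem_specialUnitaryGroup_iff.2 ⟨Matrix.mem_unitaryGroup_iff.2 hu, hd⟩⟩, c, hc, hW⟩

lemma swap_pj (E : (Σ a, Fin (n a)) ≃ Fin N) {a b : Fin k} (hne : a ≠ b) (hab : n a = n b) {V : BFSS.SU N} {c : ℂ}
    (hc : ‖c‖ = 1) (hV : ∀ s t, V.val (E s) (E t) = if s = swP a b hab t then c else 0) (e : Fin k) :
    V.val * pj E e * V.val.conjTranspose = pj E (Equiv.swap a b e) := by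
  refine ext_E E fun s t => ?_
  rw [Sw518.conj_apply E hne hab hc hV]
  unfold pj
  rw [nr775_bd, nr775_bd, Sw518.sw_fst hne]
  have h1 : (swP a b hab s = swP a b hab t) ↔ s = t := ⟨fun h => Sw518.sw_inj hne hab h, fun h => by rw [h]⟩
  have h2 : (Equiv.swap a b s.1 = e) ↔ s.1 = Equiv.swap a b e := by
    constructor
    · rintro rfl
      rw [Equiv.swap_apply_self]
    · intro h
      rw [h, Equiv.swap_apply_self]
  simp only [h1, h2]

end fr

end Nrm687

open Nrm687 in
/-- **NF-Nrm** -/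
theorem nrm_stmt {N d dh dm ds dz k : ℕ} {n : Fin k → ℕ} {T : Fin d → Matrix (Fin N) (Fin N) ℂ} {φ : Spl dh dm d}
    {ψ : Spl ds dz dh} (f : Fin d → Fin d → Fin d → ℝ) (fr : NFr n T φ ψ) : ValStmt f fr → NrmStmt f fr := by
  intro hVal hB P hmul hbase hsw V hV
  have hN : 0 < N := (fr.E ⟨⟨0, by have := fr.two; omega⟩, ⟨0, fr.pos _⟩⟩).pos
  have key : ∀ (m : ℕ) (τ : Equiv.Perm (Fin k)), τ.support.card = m → ∀ V : BFSS.SU N,
      (∀ a, V.val * pj fr.E a * V.val.conjTranspose = pj fr.E (τ a)) → P V := by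
    intro m
    induction m using Nat.strong_induction_on with
    | _ m ih =>
      intro τ hτ V hV
      by_cases h1 : τ = 1
      · subst h1
        obtain ⟨h2, h3⟩ := base hB fr V (fun a => by simpa using hV a)
        exact hbase V h2 h3
      · obtain ⟨a, ha⟩ : ∃ a, τ a ≠ a := by
          by_contra hcon
          push Not at hcon
          exact h1 (Equiv.ext hcon)
        have hab : n a = n (τ a) := by
          have h2 := congrArg Matrix.trace (hV a)
          rw [cj_tr, pj_tr, pj_tr] at h2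
          exact_mod_cast h2
        obtain ⟨W, c, hc, hW⟩ := ex_swap fr.E hN (Ne.symm ha) hab
        have hWp := swap_pj fr.E (Ne.symm ha) hab hc hW
        have h3 : P (W⁻¹ * V) := by
          refine ih (Equiv.swap a (τ a) * τ).support.card ?_ (Equiv.swap a (τ a) * τ) rfl (W⁻¹ * V) fun e => ?_
          · rw [← hτ]
            exact Equiv.Perm.card_support_swap_mul ha
          · have h4 : (W⁻¹ * V).val = W.val.conjTranspose * V.val := rfl
            rw [h4, Matrix.conjTranspose_mul, Matrix.conjTranspose_conjTranspose]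
            calc W.val.conjTranspose * V.val * pj fr.E e * (V.val.conjTranspose * W.val)
                = W.val.conjTranspose * (V.val * pj fr.E e * V.val.conjTranspose) * W.val := by
                  simp only [Matrix.mul_assoc]
              _ = W.val.conjTranspose * (W.val * pj fr.E (Equiv.swap a (τ a) (τ e)) * W.val.conjTranspose) * W.val := by
                  rw [hV, hWp, Equiv.swap_apply_self]
              _ = (W.val.conjTranspose * W.val) * pj fr.E (Equiv.swap a (τ a) (τ e)) * (W.val.conjTranspose * W.val) := by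
                  simp only [Matrix.mul_assoc]
              _ = pj fr.E ((Equiv.swap a (τ a) * τ) e) := by
                  rw [su2, Matrix.one_mul, Matrix.mul_one]
                  rfl
        have h5 := hmul W (W⁻¹ * V) (hsw a (τ a) (Ne.symm ha) hab W c hc hW) h3
        rwa [mul_inv_cancel_left] at h5
  obtain ⟨τ, hτ⟩ := ex_perm hB fr hVal hN V hV
  exact key _ τ rfl V hτ

end Vale.Agent.P353.Z.ANF
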