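import Vale.Agent.P353.AN.NF.Defs

/-! # P353, all `N`, block NF: the zero mode of the semisimple part is unique (helper925) -/

open MeasureTheory Filter Topology Matrix
open scoped ContDiff

namespace Vale.Agent.P353.Z.ANF

universe u

/-- iterated direct sums -/
theorem one925_sum (hP : AX2.ProdStmt.{u}) (hZ : AX2.ZeroStmt.{u}) (κ : ℝ) : ∀ (k : ℕ) (D : Fin k → ℕ)
    (g : ∀ a, Fin (D a) → Fin (D a) → Fin (D a) → ℝ) (_ : ∀ a, OneA.{u} κ (g a)) (ds : ℕ)
    (es : (Σ a, Fin (D a)) ≃ Fin ds) (f : Fin ds → Fin ds → Fin ds → ℝ)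
    (_ : ∀ (a b c : Fin k) (i : Fin (D a)) (j : Fin (D b)) (l : Fin (D c)), f (es ⟨a, i⟩) (es ⟨b, j⟩) (es ⟨c, l⟩) =
      if h : a = b ∧ a = c then g a i (Fin.cast (by rw [h.1]) j) (Fin.cast (by rw [h.2]) l) else 0), OneA.{u} κ f := by
  intro k
  induction k with
  | zero =>
    intro D g _ ds es f _
    have hds : ds = 0 := by
      rcases Nat.eq_zero_or_pos ds with h | h
      · exact h
      · exact (es.symm ⟨0, h⟩).1.elim0
    subst hds
    exact hZ κ f
  | succ k ih =>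
    intro D g hg ds es f hf
    have hb : Function.Bijective (Sum.elim (fun i : Fin (D 0) => es ⟨0, i⟩)
        (fun j : Fin (∑ a : Fin k, D a.succ) => es ⟨(finSigmaFinEquiv.symm j).1.succ, (finSigmaFinEquiv.symm j).2⟩)) := by
      constructor
      · rintro (i | i) (j | j) h
        · simp only [Sum.elim_inl, EmbeddingLike.apply_eq_iff_eq, Sigma.mk.injEq, heq_eq_eq, true_and] at h
          rw [h]
        · simp only [Sum.elim_inl, Sum.elim_inr, EmbeddingLike.apply_eq_iff_eq, Sigma.mk.injEq] at h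
          exact absurd h.1 (Fin.succ_ne_zero _).symm
        · simp only [Sum.elim_inl, Sum.elim_inr, EmbeddingLike.apply_eq_iff_eq, Sigma.mk.injEq] at h
          exact absurd h.1 (Fin.succ_ne_zero _)
        · simp only [Sum.elim_inr, EmbeddingLike.apply_eq_iff_eq, Sigma.mk.injEq, Fin.succ_inj] at h
          have h1 : finSigmaFinEquiv.symm i = finSigmaFinEquiv.symm j := Sigma.ext h.1 h.2
          rw [finSigmaFinEquiv.symm.injective h1]
      · intro x
        obtain ⟨⟨a, i⟩, rfl⟩ := es.surjective x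
        induction a using Fin.cases with
        | zero => exact ⟨Sum.inl i, rfl⟩
        | succ a =>
          exact ⟨Sum.inr (finSigmaFinEquiv ⟨a, i⟩),
            congrArg (fun t : Σ a : Fin k, Fin (D a.succ) => es ⟨t.1.succ, t.2⟩)
              (finSigmaFinEquiv.symm_apply_apply (⟨a, i⟩ : Σ a : Fin k, Fin (D a.succ)))⟩
    refine hP ds (D 0) (∑ a : Fin k, D a.succ) κ f (g 0)
      (fun A B C => f (es ⟨(finSigmaFinEquiv.symm A).1.succ, (finSigmaFinEquiv.symm A).2⟩)
        (es ⟨(finSigmaFinEquiv.symm B).1.succ, (finSigmaFinEquiv.symm B).2⟩)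
        (es ⟨(finSigmaFinEquiv.symm C).1.succ, (finSigmaFinEquiv.symm C).2⟩))
      (Equiv.ofBijective _ hb) ⟨?_, ?_, ?_, ?_⟩ (hg 0) ?_
    · intro A B C
      simp only [Equiv.ofBijective_apply, Sum.elim_inl]
      rw [hf, dif_pos ⟨rfl, rfl⟩]
      rfl
    · intro A B C
      rfl
    · intro A B C
      simp only [Equiv.ofBijective_apply, Sum.elim_inl, Sum.elim_inr]
      rw [hf, dif_neg fun h => Fin.succ_ne_zero _ h.2.symm]
    · intro A B C
      simp only [Equiv.ofBijective_apply, Sum.elim_inl, Sum.elim_inr]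
      rw [hf, dif_neg fun h => Fin.succ_ne_zero _ h.2]
    · refine ih (fun a => D a.succ) (fun a => g a.succ) (fun a => hg a.succ) _ finSigmaFinEquiv _ ?_
      intro a b c i j l
      have key : ∀ s : Σ a : Fin k, Fin (D a.succ),
          es ⟨(finSigmaFinEquiv.symm (finSigmaFinEquiv s)).1.succ, (finSigmaFinEquiv.symm (finSigmaFinEquiv s)).2⟩ =
            es ⟨s.1.succ, s.2⟩ := fun s =>
        congrArg (fun t : Σ a : Fin k, Fin (D a.succ) => es ⟨t.1.succ, t.2⟩) (finSigmaFinEquiv.symm_apply_apply s)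
      have h1 : f (es ⟨(finSigmaFinEquiv.symm (finSigmaFinEquiv (⟨a, i⟩ : Σ a : Fin k, Fin (D a.succ)))).1.succ,
            (finSigmaFinEquiv.symm (finSigmaFinEquiv (⟨a, i⟩ : Σ a : Fin k, Fin (D a.succ)))).2⟩)
          (es ⟨(finSigmaFinEquiv.symm (finSigmaFinEquiv (⟨b, j⟩ : Σ a : Fin k, Fin (D a.succ)))).1.succ,
            (finSigmaFinEquiv.symm (finSigmaFinEquiv (⟨b, j⟩ : Σ a : Fin k, Fin (D a.succ)))).2⟩)
          (es ⟨(finSigmaFinEquiv.symm (finSigmaFinEquiv (⟨c, l⟩ : Σ a : Fin k, Fin (D a.succ)))).1.succ,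
            (finSigmaFinEquiv.symm (finSigmaFinEquiv (⟨c, l⟩ : Σ a : Fin k, Fin (D a.succ)))).2⟩) =
          f (es ⟨a.succ, i⟩) (es ⟨b.succ, j⟩) (es ⟨c.succ, l⟩) := by
        rw [key, key, key]
      refine h1.trans ?_
      rw [hf]
      by_cases h : a = b ∧ a = c
      · rw [dif_pos h, dif_pos ⟨by rw [h.1], by rw [h.2]⟩]
      · rw [dif_neg h, dif_neg fun h' => h ⟨Fin.succ_injective _ h'.1, Fin.succ_injective _ h'.2⟩]

variable {N d dh dm ds dz k : ℕ} {n : Fin k → ℕ} {T : Fin d → Matrix (Fin N) (Fin N) ℂ} {φ : Spl dh dm d} {ψ : Spl ds dz dh}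

theorem one_stmt {F : Type u} [NormedAddCommGroup F] [InnerProductSpace ℂ F] (S : Setup d F) (fr : NFr n T φ ψ) :
    SfStmt S fr → OneStmt S fr := by
  intro hS hB hI hP hZ hM z₀ h
  refine one925_sum hP hZ 1 k (fun a => n a ^ 2 - 1) (fun a => fr.fb (n a))
    (fun a => hI (n a) (n a ^ 2 - 1) (fr.Tb (n a)) (fr.fb (n a)) (fr.Tb_bas (n a) (fr.pos a)) (hM a)) ds fr.es h.ss.f ?_
  intro a b c i j l
  exact hS hB a b c i j l

end Vale.Agent.P353.Z.ANF
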