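import Vale.Agent.P353.AN.NF.Defs

/-! # P353, all `N`, block NF: invertibility of `∑ D_i²` on `m` -/

open MeasureTheory Filter Topology Matrix
open scoped ContDiff

namespace Vale.Agent.P353.Z.ANF

universe u

variable {N d dh dm ds dz k : ℕ} {n : Fin k → ℕ} {T : Fin d → Matrix (Fin N) (Fin N) ℂ} {φ : Spl dh dm d} {ψ : Spl ds dz dh}

/-- block diagonal matrices -/
def NrBD (E : (Σ a, Fin (n a)) ≃ Fin N) (P : Matrix (Fin N) (Fin N) ℂ) : Prop :=
  ∀ s t : Σ a, Fin (n a), s.1 ≠ t.1 → P (E s) (E t) = 0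

/-- matrices vanishing on the diagonal blocks -/
def NrOD (E : (Σ a, Fin (n a)) ≃ Fin N) (P : Matrix (Fin N) (Fin N) ℂ) : Prop :=
  ∀ s t : Σ a, Fin (n a), s.1 = t.1 → P (E s) (E t) = 0

theorem nr775_tr {E : (Σ a, Fin (n a)) ≃ Fin N} {P Q : Matrix (Fin N) (Fin N) ℂ} (hP : NrBD E P) (hQ : NrOD E Q) :
    (P * Q).trace = 0 := by
  simp only [Matrix.trace, Matrix.diag_apply, Matrix.mul_apply]
  rw [← E.sum_comp]
  refine Finset.sum_eq_zero fun s _ => ?_
  rw [← E.sum_comp]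
  refine Finset.sum_eq_zero fun t _ => ?_
  by_cases h : s.1 = t.1
  · rw [hQ t s h.symm, mul_zero]
  · rw [hP s t h, zero_mul]

theorem nr775_BDmul {E : (Σ a, Fin (n a)) ≃ Fin N} {P Q : Matrix (Fin N) (Fin N) ℂ} (hP : NrBD E P) (hQ : NrBD E Q) :
    NrBD E (P * Q) := by
  intro s t h
  rw [Matrix.mul_apply, ← E.sum_comp]
  refine Finset.sum_eq_zero fun r _ => ?_
  by_cases h1 : s.1 = r.1
  · rw [hQ r t (fun h2 => h (h1.trans h2)), mul_zero]
  · rw [hP s r h1, zero_mul]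

theorem nr775_BDsub {E : (Σ a, Fin (n a)) ≃ Fin N} {P Q : Matrix (Fin N) (Fin N) ℂ} (hP : NrBD E P) (hQ : NrBD E Q) :
    NrBD E (P - Q) := by
  intro s t h
  rw [Matrix.sub_apply, hP s t h, hQ s t h, sub_zero]

theorem nr775_bd (E : (Σ a, Fin (n a)) ≃ Fin N) (v : Fin k → ℂ) (s t : Σ a, Fin (n a)) :
    bd E v (E s) (E t) = if s = t then v s.1 else 0 := by
  simp [bd, Matrix.diagonal_apply]

theorem nr775_h (fr : NFr n T φ ψ) (A : Fin dh) : NrBD fr.E (T (φ (Sum.inl A))) := by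
  obtain ⟨p, rfl⟩ := ψ.surjective A
  rcases p with s | b
  · obtain ⟨⟨a, i⟩, rfl⟩ := fr.es.surjective s
    rw [fr.s_eq]
    rintro ⟨a1, i1⟩ ⟨a2, i2⟩ h
    simp only [bk, Matrix.submatrix_apply, Equiv.symm_apply_apply]
    exact Matrix.blockDiagonal'_apply_ne _ _ _ h
  · rw [fr.z_eq]
    intro s t h
    rw [nr775_bd, if_neg]
    rintro rfl
    exact h rfl

theorem nr775_f {f : Fin d → Fin d → Fin d → ℝ} (hb : Bas N d T f) (A B C : Fin d) :
    Complex.I * (f A B C : ℂ) = ((T A * T B - T B * T A) * T C).trace := by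
  rw [hb.comm, Finset.sum_mul, Matrix.trace_sum, Finset.sum_eq_single C]
  · rw [Matrix.smul_mul, Matrix.trace_smul, hb.ortho, if_pos rfl, smul_eq_mul, mul_one]
  · intro D _ hD
    rw [Matrix.smul_mul, Matrix.trace_smul, hb.ortho, if_neg hD, smul_zero]
  · simp

/-- the block diagonal colours form a subalgebra -/
theorem nr775_sub {F : Type u} [NormedAddCommGroup F] [InnerProductSpace ℂ F] (S : Setup d F) (hb : Bas N d T S.f)
    (fr : NFr n T φ ψ) : S.IsSub φ := by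
  intro A B C
  have h := nr775_f hb (φ (Sum.inl A)) (φ (Sum.inl B)) (φ (Sum.inr C))
  rw [nr775_tr (nr775_BDsub (nr775_BDmul (nr775_h fr A) (nr775_h fr B)) (nr775_BDmul (nr775_h fr B) (nr775_h fr A)))
    (fr.m_eq C)] at h
  have h2 := (mul_eq_zero.1 h).resolve_left Complex.I_ne_zero
  exact_mod_cast h2

/-- completeness -/
theorem nr775_complete {f : Fin d → Fin d → Fin d → ℝ} (M : Bas N d T f) (hN : 0 < N) (X : Matrix (Fin N) (Fin N) ℂ) :
    X = ∑ A, (T A * X).trace • T A + (X.trace / N) • (1 : Matrix (Fin N) (Fin N) ℂ) := by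
  have hN' : (N : ℂ) ≠ 0 := by exact_mod_cast hN.ne'
  let Λ : Matrix (Fin N) (Fin N) ℂ →ₗ[ℂ] (Fin d → ℂ) × ℂ :=
    { toFun := fun X => (fun A => (T A * X).trace, X.trace)
      map_add' := fun X Y => by
        ext <;> simp [mul_add, Matrix.trace_add]
      map_smul' := fun c X => by
        ext <;> simp [Matrix.trace_smul] }
  have hval : ∀ (c : Fin d → ℂ) (s : ℂ), Λ (∑ A, c A • T A +
      (s / N) • (1 : Matrix (Fin N) (Fin N) ℂ)) = (c, s) := by
    intro c s
    apply Prod.ext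
    · funext B
      change (T B * (∑ A, c A • T A + (s / N) • (1 : Matrix (Fin N) (Fin N) ℂ))).trace = c B
      rw [mul_add, Matrix.mul_sum, Matrix.trace_add, Matrix.trace_sum, Finset.sum_eq_single B]
      · rw [Matrix.mul_smul, Matrix.trace_smul, M.ortho, if_pos rfl, Matrix.mul_smul,
          mul_one, Matrix.trace_smul, M.tr0]
        simp
      · intro A _ hA
        rw [Matrix.mul_smul, Matrix.trace_smul, M.ortho, if_neg (Ne.symm hA), smul_zero]
      · simp
    · change (∑ A, c A • T A + (s / N) • (1 : Matrix (Fin N) (Fin N) ℂ)).trace = s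
      rw [Matrix.trace_add, Matrix.trace_sum, Finset.sum_eq_zero (fun A _ => by
        rw [Matrix.trace_smul, M.tr0, smul_zero]), Matrix.trace_smul, Matrix.trace_one]
      simp [hN']
  have hsurj : Function.Surjective Λ := fun y => ⟨_, hval y.1 y.2⟩
  have hrank : Module.finrank ℂ (Matrix (Fin N) (Fin N) ℂ) =
      Module.finrank ℂ ((Fin d → ℂ) × ℂ) := by
    rw [Module.finrank_matrix, Module.finrank_prod, Module.finrank_pi, Module.finrank_self,
      Fintype.card_fin, Fintype.card_fin, M.dim_eq, mul_one]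
    have : 1 ≤ N ^ 2 := Nat.one_le_pow _ _ hN
    have h2 : N ^ 2 = N * N := sq N
    omega
  have hinj : Function.Injective Λ :=
    (LinearMap.injective_iff_surjective_of_finrank_eq_finrank hrank).2 hsurj
  apply hinj
  rw [hval]
  rfl

/-- central matrix of a configuration -/
noncomputable def nrH (T : Fin d → Matrix (Fin N) (Fin N) ℂ) (φ : Spl dh dm d) (ψ : Spl ds dz dh) (η : Cfg dz) (i : Fin 9) :
    Matrix (Fin N) (Fin N) ℂ := ∑ A, ((AD.cmb ψ 0 η (i, A) : ℝ) : ℂ) • T (φ (Sum.inl A))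

/-- element of `m` -/
noncomputable def nrX (T : Fin d → Matrix (Fin N) (Fin N) ℂ) (φ : Spl dh dm d) (v : Fin dm → ℝ) :
    Matrix (Fin N) (Fin N) ℂ := ∑ C, ((v C : ℝ) : ℂ) • T (φ (Sum.inr C))

theorem nr775_H (fr : NFr n T φ ψ) (η : Cfg dz) (i : Fin 9) :
    nrH T φ ψ η i = bd fr.E fun a => ((fr.val η i a : ℝ) : ℂ) := by
  unfold nrH
  rw [← ψ.sum_comp, Fintype.sum_sum_type]
  have h0 : ∀ a, AD.cmb ψ (0 : Cfg ds) η (i, ψ (Sum.inl a)) = 0 := by
    intro a
    simp [AD.cmb]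
  have h1 : ∀ b, AD.cmb ψ (0 : Cfg ds) η (i, ψ (Sum.inr b)) = η (i, b) := by
    intro b
    simp [AD.cmb]
  simp only [h0, h1, Complex.ofReal_zero, zero_smul, Finset.sum_const_zero, zero_add, fr.z_eq]
  ext p q
  obtain ⟨s, rfl⟩ := fr.E.surjective p
  obtain ⟨t, rfl⟩ := fr.E.surjective q
  rw [Matrix.sum_apply, nr775_bd]
  simp only [Matrix.smul_apply, nr775_bd, smul_eq_mul]
  by_cases h : s = t
  · simp only [if_pos h]
    unfold NFr.val
    push_cast
    rfl
  · simp [if_neg h]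

theorem nr775_comm {F : Type u} [NormedAddCommGroup F] [InnerProductSpace ℂ F] (S : Setup d F) (hb : Bas N d T S.f)
    (fr : NFr n T φ ψ) (η : Cfg dz) (i : Fin 9) (v : Fin dm → ℝ) :
    nrH T φ ψ η i * nrX T φ v - nrX T φ v * nrH T φ ψ η i =
      Complex.I • nrX T φ (AD.Dz S φ ψ η i *ᵥ v) := by
  have hsub := nr775_sub S hb fr
  have hz : ∀ A C B, S.f (φ (Sum.inl A)) (φ (Sum.inr C)) (φ (Sum.inl B)) = 0 := by
    intro A C B
    rw [S.f_cyc, S.f_cyc]
    exact hsub B A C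
  unfold nrH nrX
  rw [Finset.sum_mul_sum, Finset.sum_mul_sum, Finset.sum_comm (s := (Finset.univ : Finset (Fin dm))), ← Finset.sum_sub_distrib]
  simp only [← Finset.sum_sub_distrib]
  have h1 : ∀ (A : Fin dh) (C : Fin dm),
      (((AD.cmb ψ (0 : Cfg ds) η (i, A) : ℝ) : ℂ) • T (φ (Sum.inl A))) * (((v C : ℝ) : ℂ) • T (φ (Sum.inr C))) -
        (((v C : ℝ) : ℂ) • T (φ (Sum.inr C))) * (((AD.cmb ψ (0 : Cfg ds) η (i, A) : ℝ) : ℂ) • T (φ (Sum.inl A))) =
      ∑ B, (Complex.I * ((S.f (φ (Sum.inr B)) (φ (Sum.inl A)) (φ (Sum.inr C)) * AD.cmb ψ (0 : Cfg ds) η (i, A) * v C : ℝ) : ℂ)) •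
        T (φ (Sum.inr B)) := by
    intro A C
    rw [smul_mul_smul_comm, smul_mul_smul_comm, mul_comm ((v C : ℝ) : ℂ), ← smul_sub, hb.comm, ← φ.sum_comp,
      Fintype.sum_sum_type]
    simp only [hz, Complex.ofReal_zero, mul_zero, zero_smul, Finset.sum_const_zero, zero_add]
    rw [Finset.smul_sum]
    refine Finset.sum_congr rfl fun B _ => ?_
    rw [smul_smul, S.f_cyc (φ (Sum.inr B)) (φ (Sum.inl A)) (φ (Sum.inr C))]
    congr 1
    push_cast
    ring
  simp only [h1]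
  rw [Finset.smul_sum]
  rw [Finset.sum_comm_cycle]
  refine Finset.sum_congr rfl fun B _ => ?_
  rw [smul_smul]
  simp only [← Finset.sum_smul]
  congr 1
  simp only [AD.Dz, Setup.Dy, Setup.Dm, Matrix.mulVec, dotProduct, Matrix.of_apply]
  push_cast
  rw [Finset.mul_sum, Finset.sum_comm]
  refine Finset.sum_congr rfl fun C _ => ?_
  rw [Finset.sum_mul, Finset.mul_sum]

theorem nr775_Xz {f : Fin d → Fin d → Fin d → ℝ} (hb : Bas N d T f) (v : Fin dm → ℝ) (h : nrX T φ v = 0) : v = 0 := by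
  funext C
  have h1 : (nrX T φ v * T (φ (Sum.inr C))).trace = ((v C : ℝ) : ℂ) := by
    unfold nrX
    rw [Finset.sum_mul, Matrix.trace_sum, Finset.sum_eq_single C]
    · rw [Matrix.smul_mul, Matrix.trace_smul, hb.ortho, if_pos rfl, smul_eq_mul, mul_one]
    · intro D _ hD
      rw [Matrix.smul_mul, Matrix.trace_smul, hb.ortho, if_neg (fun h => hD (by simpa using φ.injective h)), smul_zero]
    · simp
  rw [h, zero_mul, Matrix.trace_zero] at h1
  exact_mod_cast h1.symm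

theorem nr775_ent (fr : NFr n T φ ψ) (η : Cfg dz) (i : Fin 9) (X : Matrix (Fin N) (Fin N) ℂ) (s t : Σ a, Fin (n a)) :
    (nrH T φ ψ η i * X - X * nrH T φ ψ η i) (fr.E s) (fr.E t) =
      ((fr.val η i s.1 : ℝ) - (fr.val η i t.1 : ℝ) : ℂ) * X (fr.E s) (fr.E t) := by
  rw [nr775_H fr, Matrix.sub_apply, Matrix.mul_apply, Matrix.mul_apply, ← fr.E.sum_comp,
    ← fr.E.sum_comp (fun x => X (fr.E s) x * _)]
  simp only [nr775_bd, ite_mul, zero_mul, mul_ite, mul_zero, Finset.sum_ite_eq, Finset.sum_ite_eq', Finset.mem_univ, if_true]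
  ring

theorem nr775_anti {F : Type u} [NormedAddCommGroup F] [InnerProductSpace ℂ F] (S : Setup d F) (φ : Spl dh dm d) (i : Fin 9)
    (y : Cfg dh) : (S.Dy φ i y)ᵀ = -S.Dy φ i y := by
  ext B C
  simp only [Setup.Dy, Setup.Dm, Matrix.transpose_apply, Matrix.of_apply, Matrix.neg_apply]
  rw [← Finset.sum_neg_distrib]
  refine Finset.sum_congr rfl fun A _ => ?_
  rw [S.f_cyc (φ (Sum.inr C)) (φ (Sum.inl A)) (φ (Sum.inr B)), S.f_swap (φ (Sum.inl A)) (φ (Sum.inr B)) (φ (Sum.inr C))]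
  ring

theorem nr775_sq (D : Matrix (Fin dm) (Fin dm) ℝ) (hD : Dᵀ = -D) (v : Fin dm → ℝ) :
    (D *ᵥ v) ⬝ᵥ (D *ᵥ v) = -(((D * D) *ᵥ v) ⬝ᵥ v) := by
  rw [Matrix.dotProduct_mulVec, ← Matrix.mulVec_transpose, hD, Matrix.neg_mulVec, Matrix.mulVec_mulVec, neg_dotProduct]

theorem reg_stmt {F : Type u} [NormedAddCommGroup F] [InnerProductSpace ℂ F] (S : Setup d F) (fr : NFr n T φ ψ) :
    RegStmt S fr := by
  intro hb I η
  constructor
  · intro hdet a b hab
    by_contra hcon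
    push Not at hcon
    have hpa := fr.pos a
    have hpb := fr.pos b
    obtain ⟨s0, hs0⟩ : ∃ s0 : Σ a, Fin (n a), s0.1 = a := ⟨⟨a, ⟨0, hpa⟩⟩, rfl⟩
    obtain ⟨t0, ht0⟩ : ∃ t0 : Σ a, Fin (n a), t0.1 = b := ⟨⟨b, ⟨0, hpb⟩⟩, rfl⟩
    have hst : s0 ≠ t0 := by
      rintro rfl
      exact hab (hs0.symm.trans ht0)
    have hN : 0 < N := (fr.E s0).pos
    let Y : Matrix (Fin N) (Fin N) ℂ := Matrix.single (fr.E s0) (fr.E t0) 1 + Matrix.single (fr.E t0) (fr.E s0) 1
    have hY : ∀ s t : Σ a, Fin (n a), Y (fr.E s) (fr.E t) = (if s0 = s ∧ t0 = t then 1 else 0) + (if t0 = s ∧ s0 = t then 1 else 0) := by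
      intro s t
      simp only [Y, Matrix.add_apply, Matrix.single_apply, EmbeddingLike.apply_eq_iff_eq]
    have hYo : NrOD fr.E Y := by
      intro s t h
      rw [hY, if_neg, if_neg, add_zero]
      · rintro ⟨rfl, rfl⟩
        exact hab (hs0.symm.trans (h.symm.trans ht0))
      · rintro ⟨rfl, rfl⟩
        exact hab (hs0.symm.trans (h.trans ht0))
    have hYh : Y.conjTranspose = Y := by
      simp only [Y, Matrix.conjTranspose_add, Matrix.conjTranspose_single, star_one]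
      rw [add_comm]
    have hYt : Y.trace = 0 := by
      have h1 : (1 * Y).trace = 0 := by
        refine nr775_tr (E := fr.E) (fun s t h => ?_) hYo
        rw [Matrix.one_apply, if_neg]
        intro h2
        exact h (by rw [fr.E.injective h2])
      rwa [one_mul] at h1
    have hYc := nr775_complete hb hN Y
    rw [hYt, zero_div, zero_smul, add_zero, ← φ.sum_comp, Fintype.sum_sum_type] at hYc
    have hYX : Y = nrX T φ fun C => (T (φ (Sum.inr C)) * Y).trace.re := by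
      have e1 : ∀ A, (T (φ (Sum.inl A)) * Y).trace = 0 := fun A => nr775_tr (nr775_h fr A) hYo
      have e2 : ∀ C, (T (φ (Sum.inr C)) * Y).trace = (((T (φ (Sum.inr C)) * Y).trace.re : ℝ) : ℂ) := by
        intro C
        symm
        rw [← Complex.conj_eq_iff_re]
        have h1 : (T (φ (Sum.inr C)) * Y).conjTranspose.trace = star (T (φ (Sum.inr C)) * Y).trace :=
          Matrix.trace_conjTranspose _
        rw [Matrix.conjTranspose_mul, hb.herm, hYh, Matrix.trace_mul_comm] at h1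
        exact h1.symm
      conv_lhs => rw [hYc]
      simp only [e1, zero_smul, Finset.sum_const_zero, zero_add]
      unfold nrX
      exact Finset.sum_congr rfl fun C _ => by rw [← e2 C]
    obtain ⟨v, hv⟩ : ∃ v : Fin dm → ℝ, Y = nrX T φ v := ⟨_, hYX⟩
    have hv0 : v ≠ 0 := by
      rintro rfl
      have h1 : Y (fr.E s0) (fr.E t0) = 0 := by
        rw [hv]
        simp [nrX]
      rw [hY, if_pos ⟨rfl, rfl⟩, if_neg (fun h => hst h.1.symm)] at h1
      simp at h1
    have hDv : ∀ i ∈ I, AD.Dz S φ ψ η i *ᵥ v = 0 := by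
      intro i hi
      refine nr775_Xz (φ := φ) hb _ ?_
      have h1 := nr775_comm S hb fr η i v
      have h2 : nrH T φ ψ η i * nrX T φ v - nrX T φ v * nrH T φ ψ η i = 0 := by
        ext p q
        obtain ⟨s, rfl⟩ := fr.E.surjective p
        obtain ⟨t, rfl⟩ := fr.E.surjective q
        rw [nr775_ent fr, ← hv, hY]
        have hh := hcon i hi
        by_cases c1 : s0 = s ∧ t0 = t
        · obtain ⟨rfl, rfl⟩ := c1
          rw [hs0, ht0, hh]
          simp
        · by_cases c2 : t0 = s ∧ s0 = t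
          · obtain ⟨rfl, rfl⟩ := c2
            rw [hs0, ht0, hh]
            simp
          · rw [if_neg c1, if_neg c2]
            simp
      rw [h2] at h1
      exact (smul_eq_zero.1 h1.symm).resolve_left Complex.I_ne_zero
    refine hdet (Matrix.exists_mulVec_eq_zero_iff.1 ⟨v, hv0, ?_⟩)
    rw [Matrix.sum_mulVec]
    refine Finset.sum_eq_zero fun i hi => ?_
    rw [← Matrix.mulVec_mulVec, hDv i hi, Matrix.mulVec_zero]
  · intro h hdet
    obtain ⟨v, hv, hv0⟩ := Matrix.exists_mulVec_eq_zero_iff.2 hdet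
    have h1 : ∑ i ∈ I, (AD.Dz S φ ψ η i *ᵥ v) ⬝ᵥ (AD.Dz S φ ψ η i *ᵥ v) = 0 := by
      have h2 : ∀ i, (AD.Dz S φ ψ η i *ᵥ v) ⬝ᵥ (AD.Dz S φ ψ η i *ᵥ v) =
          -(((AD.Dz S φ ψ η i * AD.Dz S φ ψ η i) *ᵥ v) ⬝ᵥ v) := fun i => nr775_sq _ (nr775_anti S φ i _) v
      simp only [h2]
      rw [Finset.sum_neg_distrib, ← sum_dotProduct, ← Matrix.sum_mulVec, hv0, zero_dotProduct, neg_zero]
    have h3 : ∀ i ∈ I, AD.Dz S φ ψ η i *ᵥ v = 0 := by
      intro i hi
      have h4 := (Finset.sum_eq_zero_iff_of_nonneg fun i _ => Finset.sum_nonneg fun _ _ => mul_self_nonneg _).1 h1 i hi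
      exact dotProduct_self_eq_zero.1 h4
    refine hv (nr775_Xz (φ := φ) hb v ?_)
    ext p q
    obtain ⟨s, rfl⟩ := fr.E.surjective p
    obtain ⟨t, rfl⟩ := fr.E.surjective q
    by_cases hst : s.1 = t.1
    · unfold nrX
      rw [Matrix.sum_apply]
      simp [fr.m_eq _ s t hst]
    · obtain ⟨i, hi, hne⟩ := h s.1 t.1 hst
      have h5 := nr775_comm S hb fr η i v
      have h6 : nrX T φ (0 : Fin dm → ℝ) = 0 := by simp [nrX]
      rw [h3 i hi, h6, smul_zero] at h5
      have h7 := nr775_ent fr η i (nrX T φ v) s t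
      rw [h5, Matrix.zero_apply] at h7
      have h8 : ((fr.val η i s.1 : ℝ) - (fr.val η i t.1 : ℝ) : ℂ) ≠ 0 := by
        rw [← Complex.ofReal_sub]
        exact_mod_cast sub_ne_zero.2 hne
      rw [Matrix.zero_apply]
      exact (mul_eq_zero.1 h7.symm).resolve_left h8

end Vale.Agent.P353.Z.ANF
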