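import Vale.Agent.P353.AN.NF.Defs

/-! # P353, all `N`, block NF, NF-Sf: structure constants of the semisimple part -/

open MeasureTheory Filter Topology Matrix
open scoped ContDiff

namespace Vale.Agent.P353.Z

universe u

namespace ANF

/-- structure constants from the trace form -/
lemma sf76_f {N d : ℕ} {T : Fin d → Matrix (Fin N) (Fin N) ℂ} {f : Fin d → Fin d → Fin d → ℝ}
    (h : Bas N d T f) (A B C : Fin d) :
    Complex.I * (f A B C : ℂ) = (T A * T B * T C).trace - (T B * T A * T C).trace := by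
  have h1 : ((T A * T B - T B * T A) * T C).trace =
      ((∑ D, (Complex.I * (f A B D : ℂ)) • T D) * T C).trace := by rw [h.comm A B]
  rw [Matrix.sub_mul, Matrix.trace_sub] at h1
  rw [h1, Matrix.sum_mul, Matrix.trace_sum, Fintype.sum_eq_single C]
  · rw [Matrix.smul_mul, Matrix.trace_smul, h.ortho, if_pos rfl, smul_eq_mul, mul_one]
  · intro D hD
    rw [Matrix.smul_mul, Matrix.trace_smul, h.ortho, if_neg hD, smul_zero]

/-- product of block matrices with the same block -/
lemma sf76_mul {N k : ℕ} {n : Fin k → ℕ} (E : (Σ a, Fin (n a)) ≃ Fin N) (a : Fin k)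
    (X Y : Matrix (Fin (n a)) (Fin (n a)) ℂ) : bk E a X * bk E a Y = bk E a (X * Y) := by
  unfold bk
  rw [Matrix.submatrix_mul_equiv, ← Matrix.blockDiagonal'_mul]
  congr 2
  funext b
  by_cases h : b = a
  · subst h
    simp only [Pi.single_eq_same]
  · simp only [Pi.single_eq_of_ne h, Matrix.mul_zero]

/-- product of block matrices with different blocks -/
lemma sf76_ne {N k : ℕ} {n : Fin k → ℕ} (E : (Σ a, Fin (n a)) ≃ Fin N) {a b : Fin k} (hab : a ≠ b)
    (X : Matrix (Fin (n a)) (Fin (n a)) ℂ) (Y : Matrix (Fin (n b)) (Fin (n b)) ℂ) :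
    bk E a X * bk E b Y = 0 := by
  unfold bk
  rw [Matrix.submatrix_mul_equiv, ← Matrix.blockDiagonal'_mul]
  have h : (fun c => (Pi.single a X : ∀ c, Matrix (Fin (n c)) (Fin (n c)) ℂ) c *
      (Pi.single b Y : ∀ c, Matrix (Fin (n c)) (Fin (n c)) ℂ) c) = 0 := by
    funext c
    by_cases h : c = a
    · subst h
      simp only [Pi.single_eq_of_ne hab, Matrix.mul_zero, Pi.zero_apply]
    · simp only [Pi.single_eq_of_ne h, Matrix.zero_mul, Pi.zero_apply]
  rw [h, Matrix.blockDiagonal'_zero, Matrix.submatrix_zero]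
  rfl

/-- trace of a block matrix -/
lemma sf76_tr {N k : ℕ} {n : Fin k → ℕ} (E : (Σ a, Fin (n a)) ≃ Fin N) (a : Fin k)
    (X : Matrix (Fin (n a)) (Fin (n a)) ℂ) : (bk E a X).trace = X.trace := by
  unfold bk
  have h : ∀ M : Matrix (Σ a, Fin (n a)) (Σ a, Fin (n a)) ℂ,
      (M.submatrix E.symm E.symm).trace = M.trace := by
    intro M
    unfold Matrix.trace
    simp only [Matrix.diag, Matrix.submatrix_apply]
    exact Equiv.sum_comp E.symm (fun i => M i i)
  rw [h, Matrix.trace_blockDiagonal', Fintype.sum_eq_single a]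
  · simp only [Pi.single_eq_same]
  · intro b hb
    simp only [Pi.single_eq_of_ne hb, Matrix.trace_zero]

variable {N d dh dm ds dz k : ℕ} {n : Fin k → ℕ} {T : Fin d → Matrix (Fin N) (Fin N) ℂ} {φ : Spl dh dm d} {ψ : Spl ds dz dh}
  {F : Type u} [NormedAddCommGroup F] [InnerProductSpace ℂ F]

/-- NF-Sf -/
theorem sf_stmt (S : Setup d F) (fr : NFr n T φ ψ) : SfStmt S fr := by
  intro hB a b c i j l
  have h1 := sf76_f hB (φ (Sum.inl (ψ (Sum.inl (fr.es ⟨a, i⟩))))) (φ (Sum.inl (ψ (Sum.inl (fr.es ⟨b, j⟩)))))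
    (φ (Sum.inl (ψ (Sum.inl (fr.es ⟨c, l⟩)))))
  rw [fr.s_eq, fr.s_eq, fr.s_eq] at h1
  by_cases hab : a = b
  · subst hab
    rw [sf76_mul, sf76_mul] at h1
    by_cases hac : a = c
    · subst hac
      rw [dif_pos ⟨rfl, rfl⟩]
      rw [sf76_mul, sf76_mul, sf76_tr, sf76_tr,
        ← sf76_f (fr.Tb_bas (n a) (fr.pos a)) i j l] at h1
      exact_mod_cast mul_left_cancel₀ Complex.I_ne_zero h1
    · rw [dif_neg fun h => hac h.2]
      rw [sf76_ne fr.E hac, sf76_ne fr.E hac, sub_self] at h1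
      exact_mod_cast (mul_eq_zero.mp h1).resolve_left Complex.I_ne_zero
  · rw [dif_neg fun h => hab h.1]
    rw [sf76_ne fr.E hab, sf76_ne fr.E (Ne.symm hab), Matrix.zero_mul, sub_self] at h1
    exact_mod_cast (mul_eq_zero.mp h1).resolve_left Complex.I_ne_zero

end ANF

end Vale.Agent.P353.Z
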