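import Vale.Agent.P353.AN.NF.Defs

/-! # P353, all `N`, block NF: frames are in standard position (helper964) -/

open MeasureTheory Filter Topology Matrix
open scoped ContDiff

namespace Vale.Agent.P353.Z.ANF

universe u

section algebra

variable {N d : ℕ} {T : Fin d → Matrix (Fin N) (Fin N) ℂ} {f : Fin d → Fin d → Fin d → ℝ}

/-- structure constants as traces -/
lemma nst_f (hB : Bas N d T f) (A B C : Fin d) :
    ((T A * T B - T B * T A) * T C).trace = Complex.I * (f A B C : ℂ) := by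
  rw [hB.comm, Finset.sum_mul, Matrix.trace_sum]
  simp only [Matrix.smul_mul, Matrix.trace_smul, hB.ortho, smul_eq_mul, mul_ite, mul_one, mul_zero]
  simp

lemma nst_f0 (hB : Bas N d T f) (A B C : Fin d) (h : ((T A * T B - T B * T A) * T C).trace = 0) : f A B C = 0 := by
  have h1 := nst_f hB A B C
  rw [h] at h1
  have h2 := (mul_eq_zero.1 h1.symm).resolve_left Complex.I_ne_zero
  exact_mod_cast h2

/-- coordinates of matrices -/
noncomputable def nstPhi (T : Fin d → Matrix (Fin N) (Fin N) ℂ) : ((Fin d → ℂ) × ℂ) →ₗ[ℂ] Matrix (Fin N) (Fin N) ℂ where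
  toFun p := ∑ A, p.1 A • T A + p.2 • (1 : Matrix (Fin N) (Fin N) ℂ)
  map_add' p q := by
    simp only [Prod.fst_add, Prod.snd_add, Pi.add_apply, add_smul, Finset.sum_add_distrib]
    abel
  map_smul' c p := by
    simp only [Prod.smul_fst, Prod.smul_snd, Pi.smul_apply, smul_eq_mul, RingHom.id_apply,
      smul_add, Finset.smul_sum, smul_smul]

lemma nstPhi_trace (hB : Bas N d T f) (p : (Fin d → ℂ) × ℂ) : (nstPhi T p).trace = p.2 * (N : ℂ) := by
  simp only [nstPhi, LinearMap.coe_mk, AddHom.coe_mk, Matrix.trace_add, Matrix.trace_sum,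
    Matrix.trace_smul, hB.tr0, Matrix.trace_one, Fintype.card_fin, smul_eq_mul, mul_zero,
    Finset.sum_const_zero, zero_add]

lemma nstPhi_trace_mul (hB : Bas N d T f) (p : (Fin d → ℂ) × ℂ) (B : Fin d) :
    (nstPhi T p * T B).trace = p.1 B := by
  simp only [nstPhi, LinearMap.coe_mk, AddHom.coe_mk, Matrix.add_mul, Finset.sum_mul,
    Matrix.smul_mul, Matrix.one_mul, Matrix.trace_add, Matrix.trace_sum, Matrix.trace_smul,
    hB.ortho, hB.tr0, smul_eq_mul, mul_zero, add_zero, mul_ite, mul_one]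
  simp

/-- the `T_A` and the identity span the matrices -/
lemma nst_surj (hN : 1 ≤ N) (hB : Bas N d T f) (Y : Matrix (Fin N) (Fin N) ℂ) : ∃ p, nstPhi T p = Y := by
  have hN' : (N : ℂ) ≠ 0 := by
    have : N ≠ 0 := by omega
    exact_mod_cast this
  have hdN : d + 1 = N * N := by
    have h := hB.dim_eq
    have h2 : 0 < N * N := Nat.mul_pos hN hN
    rw [pow_two] at h
    omega
  have hinj : Function.Injective (nstPhi T) := by
    rw [injective_iff_map_eq_zero]
    intro p hp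
    have h1 := nstPhi_trace hB p
    rw [hp, Matrix.trace_zero] at h1
    have h2 : p.2 = 0 := by
      rcases mul_eq_zero.1 h1.symm with h | h
      · exact h
      · exact absurd h hN'
    have h3 : p.1 = 0 := by
      funext B
      have h4 := nstPhi_trace_mul hB p B
      rw [hp, Matrix.zero_mul, Matrix.trace_zero] at h4
      exact h4.symm
    exact Prod.ext h3 h2
  have hfin : Module.finrank ℂ ((Fin d → ℂ) × ℂ) =
      Module.finrank ℂ (Matrix (Fin N) (Fin N) ℂ) := by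
    rw [Module.finrank_prod, Module.finrank_fin_fun, Module.finrank_self, Module.finrank_matrix,
      Module.finrank_self, Fintype.card_fin, mul_one, hdN]
  exact (LinearMap.injective_iff_surjective_of_finrank_eq_finrank hfin).1 hinj Y

/-- no centre -/
lemma nst_centre (hN : 1 ≤ N) (hB : Bas N d T f) (X : Matrix (Fin N) (Fin N) ℂ) (hX : X.trace = 0)
    (hc : ∀ A, X * T A = T A * X) : X = 0 := by
  have h1 : ∀ Y, X * Y = Y * X := by
    intro Y
    obtain ⟨p, rfl⟩ := nst_surj hN hB Y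
    simp only [nstPhi, LinearMap.coe_mk, AddHom.coe_mk, Matrix.mul_add, Matrix.add_mul, Finset.sum_mul,
      Finset.mul_sum, Matrix.mul_smul, Matrix.smul_mul, hc, Matrix.mul_one, Matrix.one_mul]
  obtain ⟨c, rfl⟩ := Matrix.mem_range_scalar_of_commute_single (M := X) (fun i j _ => (h1 _).symm)
  have h2 : (N : ℂ) * c = 0 := by
    simpa [Matrix.trace] using hX
  have hN' : (N : ℂ) ≠ 0 := by
    have : N ≠ 0 := by omega
    exact_mod_cast this
  have h3 : c = 0 := (mul_eq_zero.1 h2).resolve_left hN'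
  rw [h3, map_zero]

end algebra

variable {N d dh dm ds dz k : ℕ} {n : Fin k → ℕ} {T : Fin d → Matrix (Fin N) (Fin N) ℂ} {φ : Spl dh dm d} {ψ : Spl ds dz dh}

/-- products of block diagonal matrices -/
lemma nst_bdmul (E : (Σ a, Fin (n a)) ≃ Fin N) {X Y : Matrix (Fin N) (Fin N) ℂ}
    (hX : ∀ s t, s.1 ≠ t.1 → X (E s) (E t) = 0) (hY : ∀ s t, s.1 ≠ t.1 → Y (E s) (E t) = 0) :
    ∀ s t, s.1 ≠ t.1 → (X * Y) (E s) (E t) = 0 := by
  intro s t hst
  rw [Matrix.mul_apply, ← E.sum_comp]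
  refine Finset.sum_eq_zero fun r _ => ?_
  by_cases h : s.1 = r.1
  · rw [hY r t (by rw [← h]; exact hst), mul_zero]
  · rw [hX s r h, zero_mul]

/-- block scalars commute with block diagonal matrices -/
lemma nst_bdcomm (E : (Σ a, Fin (n a)) ≃ Fin N) (v : Fin k → ℂ) {X : Matrix (Fin N) (Fin N) ℂ}
    (hX : ∀ s t, s.1 ≠ t.1 → X (E s) (E t) = 0) : bd E v * X = X * bd E v := by
  ext x y
  obtain ⟨s, rfl⟩ := E.surjective x
  obtain ⟨t, rfl⟩ := E.surjective y
  have h1 : (bd E v * X) (E s) (E t) = v s.1 * X (E s) (E t) := by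
    rw [Matrix.mul_apply, ← E.sum_comp, Finset.sum_eq_single s]
    · simp [bd]
    · intro r _ hr
      simp [bd, Matrix.diagonal_apply_ne' _ hr]
    · intro h
      exact absurd (Finset.mem_univ _) h
  have h2 : (X * bd E v) (E s) (E t) = X (E s) (E t) * v t.1 := by
    rw [Matrix.mul_apply, ← E.sum_comp, Finset.sum_eq_single t]
    · simp [bd]
    · intro r _ hr
      simp [bd, Matrix.diagonal_apply_ne _ hr]
    · intro h
      exact absurd (Finset.mem_univ _) h
  rw [h1, h2]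
  by_cases h : s.1 = t.1
  · rw [h, mul_comm]
  · rw [hX s t h, mul_zero, zero_mul]

/-- the matrices of `h` are block diagonal -/
lemma nst_bd (fr : NFr n T φ ψ) (A : Fin dh) (s t : Σ a, Fin (n a)) (h : s.1 ≠ t.1) :
    T (φ (Sum.inl A)) (fr.E s) (fr.E t) = 0 := by
  obtain ⟨A', rfl⟩ := ψ.surjective A
  rcases A' with A' | B
  · obtain ⟨⟨a, i⟩, rfl⟩ := fr.es.surjective A'
    rw [fr.s_eq]
    obtain ⟨s1, s2⟩ := s
    obtain ⟨t1, t2⟩ := t
    simp only [bk, Matrix.submatrix_apply, Equiv.symm_apply_apply]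
    exact Matrix.blockDiagonal'_apply_ne _ _ _ h
  · rw [fr.z_eq]
    simp only [bd, Matrix.submatrix_apply, Equiv.symm_apply_apply]
    exact Matrix.diagonal_apply_ne _ (fun h' => h (by rw [h']))

/-- `h` is a subalgebra -/
lemma nst_sub {f : Fin d → Fin d → Fin d → ℝ} (hB : Bas N d T f) (fr : NFr n T φ ψ) (A B : Fin dh) (C : Fin dm) :
    f (φ (Sum.inl A)) (φ (Sum.inl B)) (φ (Sum.inr C)) = 0 := by
  refine nst_f0 hB _ _ _ ?_
  have h1 := nst_bdmul fr.E (nst_bd fr A) (nst_bd fr B)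
  have h2 := nst_bdmul fr.E (nst_bd fr B) (nst_bd fr A)
  rw [Matrix.trace, ← fr.E.sum_comp]
  refine Finset.sum_eq_zero fun s _ => ?_
  rw [Matrix.diag_apply, Matrix.mul_apply, ← fr.E.sum_comp]
  refine Finset.sum_eq_zero fun t _ => ?_
  by_cases h : s.1 = t.1
  · rw [fr.m_eq C t s h.symm, mul_zero]
  · rw [Matrix.sub_apply, h1 s t h, h2 s t h, sub_zero, zero_mul]

/-- the `z` colours are central in `h` -/
lemma nst_cen {f : Fin d → Fin d → Fin d → ℝ} (hB : Bas N d T f) (fr : NFr n T φ ψ) (A : Fin dz) (B : Fin dh)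
    (C : Fin d) : f (φ (Sum.inl (ψ (Sum.inr A)))) (φ (Sum.inl B)) C = 0 := by
  refine nst_f0 hB _ _ _ ?_
  rw [fr.z_eq, nst_bdcomm fr.E _ (nst_bd fr B), sub_self, Matrix.zero_mul, Matrix.trace_zero]

/-- block diagonal matrix of a family -/
noncomputable def nstB (E : (Σ a, Fin (n a)) ≃ Fin N) (X : ∀ a, Matrix (Fin (n a)) (Fin (n a)) ℂ) :
    Matrix (Fin N) (Fin N) ℂ := (Matrix.blockDiagonal' X).submatrix E.symm E.symm

lemma nstB_apply (E : (Σ a, Fin (n a)) ≃ Fin N) (X : ∀ a, Matrix (Fin (n a)) (Fin (n a)) ℂ) (a : Fin k)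
    (p q : Fin (n a)) : nstB E X (E ⟨a, p⟩) (E ⟨a, q⟩) = X a p q := by
  simp only [nstB, Matrix.submatrix_apply, Equiv.symm_apply_apply]
  exact Matrix.blockDiagonal'_apply_eq _ _ _ _

lemma nstB_mul (E : (Σ a, Fin (n a)) ≃ Fin N) (X Y : ∀ a, Matrix (Fin (n a)) (Fin (n a)) ℂ) :
    nstB E X * nstB E Y = nstB E (fun a => X a * Y a) := by
  rw [nstB, nstB, nstB, Matrix.submatrix_mul_equiv, ← Matrix.blockDiagonal'_mul]

/-- the `s` colours have no centre -/
lemma nst_less {f : Fin d → Fin d → Fin d → ℝ} (hB : Bas N d T f) (fr : NFr n T φ ψ)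
    (hcyc : ∀ A B C, f A B C = f B C A) (v : Fin ds → ℝ)
    (hv : ∀ B C, ∑ A, f (φ (Sum.inl (ψ (Sum.inl A)))) (φ (Sum.inl (ψ (Sum.inl B))))
      (φ (Sum.inl (ψ (Sum.inl C)))) * v A = 0) : v = 0 := by
  set Y : ∀ a, Matrix (Fin (n a)) (Fin (n a)) ℂ := fun a =>
    ∑ i, ((v (fr.es ⟨a, i⟩) : ℝ) : ℂ) • fr.Tb (n a) i with hY
  -- the matrix of `v`
  have hX : ∑ A, ((v A : ℝ) : ℂ) • T (φ (Sum.inl (ψ (Sum.inl A)))) = nstB fr.E Y := by
    rw [← fr.es.sum_comp, Fintype.sum_sigma]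
    simp only [fr.s_eq]
    ext x y
    obtain ⟨s, rfl⟩ := fr.E.surjective x
    obtain ⟨t, rfl⟩ := fr.E.surjective y
    obtain ⟨s1, s2⟩ := s
    obtain ⟨t1, t2⟩ := t
    simp only [Matrix.sum_apply, Matrix.smul_apply, bk, nstB, Matrix.submatrix_apply, Equiv.symm_apply_apply]
    by_cases h : s1 = t1
    · subst h
      simp only [Matrix.blockDiagonal'_apply_eq]
      rw [Finset.sum_eq_single s1]
      · simp only [Pi.single_eq_same, hY, Matrix.sum_apply, Matrix.smul_apply]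
      · intro b _ hb
        simp only [Pi.single_eq_of_ne hb.symm, Matrix.zero_apply, smul_zero, Finset.sum_const_zero]
      · intro h
        exact absurd (Finset.mem_univ _) h
    · simp only [Matrix.blockDiagonal'_apply_ne _ _ _ h, smul_zero, Finset.sum_const_zero]
  -- it commutes with all `s` matrices
  have hC : ∀ B : Fin ds, nstB fr.E Y * T (φ (Sum.inl (ψ (Sum.inl B)))) =
      T (φ (Sum.inl (ψ (Sum.inl B)))) * nstB fr.E Y := by
    intro B
    rw [← sub_eq_zero, ← hX, Finset.sum_mul, Finset.mul_sum, ← Finset.sum_sub_distrib]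
    simp only [Matrix.smul_mul, Matrix.mul_smul, ← smul_sub, hB.comm, Finset.smul_sum, smul_smul]
    rw [Finset.sum_comm]
    have h1 : ∀ C : Fin d, ∑ A, f (φ (Sum.inl (ψ (Sum.inl A)))) (φ (Sum.inl (ψ (Sum.inl B)))) C * v A = 0 := by
      intro C
      obtain ⟨C', rfl⟩ := φ.surjective C
      rcases C' with C' | C'
      · obtain ⟨C'', rfl⟩ := ψ.surjective C'
        rcases C'' with C'' | C''
        · exact hv B C''
        · refine Finset.sum_eq_zero fun A _ => ?_
          rw [hcyc, hcyc, nst_cen hB fr, zero_mul]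
      · refine Finset.sum_eq_zero fun A _ => ?_
        rw [nst_sub hB fr, zero_mul]
    refine Finset.sum_eq_zero fun C _ => ?_
    rw [← Finset.sum_smul]
    have h2 : ∑ A, ((v A : ℝ) : ℂ) * (Complex.I * ((f (φ (Sum.inl (ψ (Sum.inl A)))) (φ (Sum.inl (ψ (Sum.inl B)))) C : ℝ) : ℂ)) =
        Complex.I * ((∑ A, f (φ (Sum.inl (ψ (Sum.inl A)))) (φ (Sum.inl (ψ (Sum.inl B)))) C * v A : ℝ) : ℂ) := by
      push_cast
      rw [Finset.mul_sum]
      exact Finset.sum_congr rfl fun A _ => by ring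
    rw [h2, h1 C]
    simp
  -- block by block
  have hblk : ∀ a (j : Fin (n a ^ 2 - 1)), Y a * fr.Tb (n a) j = fr.Tb (n a) j * Y a := by
    intro a j
    have h1 := hC (fr.es ⟨a, j⟩)
    rw [fr.s_eq] at h1
    have h2 : bk fr.E a (fr.Tb (n a) j) = nstB fr.E (Pi.single a (fr.Tb (n a) j)) := rfl
    rw [h2, nstB_mul, nstB_mul] at h1
    ext p q
    have h3 := congrFun (congrFun h1 (fr.E ⟨a, p⟩)) (fr.E ⟨a, q⟩)
    rw [nstB_apply, nstB_apply] at h3
    simpa only [Pi.single_eq_same] using h3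
  have hYt : ∀ a, (Y a).trace = 0 := by
    intro a
    simp only [hY, Matrix.trace_sum, Matrix.trace_smul, (fr.Tb_bas (n a) (fr.pos a)).tr0, smul_zero,
      Finset.sum_const_zero]
  have hY0 : ∀ a, Y a = 0 := fun a =>
    nst_centre (fr.pos a) (fr.Tb_bas (n a) (fr.pos a)) (Y a) (hYt a) (hblk a)
  funext A
  obtain ⟨⟨a, j⟩, rfl⟩ := fr.es.surjective A
  have h1 : (Y a * fr.Tb (n a) j).trace = ((v (fr.es ⟨a, j⟩) : ℝ) : ℂ) := by
    simp only [hY, Finset.sum_mul, Matrix.smul_mul, Matrix.trace_sum, Matrix.trace_smul,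
      (fr.Tb_bas (n a) (fr.pos a)).ortho, smul_eq_mul, mul_ite, mul_one, mul_zero]
    simp
  rw [hY0 a, Matrix.zero_mul, Matrix.trace_zero] at h1
  exact_mod_cast h1.symm

/-- **NF-Std** -/
theorem std_stmt {F : Type u} [NormedAddCommGroup F] [InnerProductSpace ℂ F] (S : Setup d F) (fr : NFr n T φ ψ) :
    StdStmt S fr := by
  intro hB hR z₀ hz
  have hsub : S.IsSub φ := fun A B C => nst_sub hB fr A B C
  have hcen : ∀ (A : Fin dz) (B C : Fin dh), S.f (φ (Sum.inl (ψ (Sum.inr A)))) (φ (Sum.inl B)) (φ (Sum.inl C)) = 0 :=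
    fun A B C => nst_cen hB fr A B _
  refine ⟨⟨hsub, ?_, ?_⟩, hcen, fun v hv => nst_less hB fr S.f_cyc v hv⟩
  · intro i B C
    refine Finset.sum_eq_zero fun A _ => ?_
    obtain ⟨A', rfl⟩ := ψ.surjective A
    rcases A' with A' | A'
    · simp [AD.cmb]
    · rw [hcen, zero_mul]
  · have h1 := (hR hB {8} z₀).2 (fun a b hab => ⟨8, Finset.mem_singleton_self _, hz a b hab⟩)
    rw [Finset.sum_singleton, Matrix.det_mul] at h1
    exact (mul_ne_zero_iff.1 h1).1

end Vale.Agent.P353.Z.ANF
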