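import Vale.Agent.P353.AN.NF.Ex
import Vale.Agent.P353.AN.NF.RotM
import Vale.Agent.P353.AN.NF.Val
import Vale.Agent.P353.AN.NF.Reg
import Vale.Agent.P353.AN.NF.Std
import Vale.Agent.P353.AN.NF.Sf
import Vale.Agent.P353.AN.NF.One
import Vale.Agent.P353.AN.NF.Nrm
import Vale.Agent.P353.AN.NF.Sw
import Vale.Agent.P353.AN.X2.Zero

/-! # P353, all `N`, block NF: assembly (unconditional outputs) -/

namespace Vale.Agent.P353.Z.ANF

universe u

theorem exAll : ExStmt := ex_stmt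

theorem rotMAll : RotMStmt.{u} := rotM_stmt

theorem basMAll : BasMStmt.{u} := basM_stmt

variable {N d dh dm ds dz k : ℕ} {n : Fin k → ℕ} {T : Fin d → Matrix (Fin N) (Fin N) ℂ} {φ : Spl dh dm d} {ψ : Spl ds dz dh}

theorem valAll (f : Fin d → Fin d → Fin d → ℝ) (fr : NFr n T φ ψ) : ValStmt f fr := val_stmt f fr

theorem regAll {F : Type u} [NormedAddCommGroup F] [InnerProductSpace ℂ F] (S : Setup d F) (fr : NFr n T φ ψ) :
    RegStmt S fr := reg_stmt S fr

theorem stdAll {F : Type u} [NormedAddCommGroup F] [InnerProductSpace ℂ F] (S : Setup d F) (fr : NFr n T φ ψ)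
    (hB : Bas N d T S.f) (z₀ : Cfg dz) (hz : ∀ a b, a ≠ b → fr.val z₀ 8 a ≠ fr.val z₀ 8 b) : AD.Std2 S φ ψ z₀ :=
  std_stmt S fr hB (reg_stmt S fr) z₀ hz

theorem sfAll {F : Type u} [NormedAddCommGroup F] [InnerProductSpace ℂ F] (S : Setup d F) (fr : NFr n T φ ψ) :
    SfStmt S fr := sf_stmt S fr

theorem oneAll {F : Type u} [NormedAddCommGroup F] [InnerProductSpace ℂ F] (S : Setup d F) (fr : NFr n T φ ψ) :
    OneStmt S fr := one_stmt S fr (sf_stmt S fr)

theorem nrmAll (f : Fin d → Fin d → Fin d → ℝ) (fr : NFr n T φ ψ) : NrmStmt f fr := nrm_stmt f fr (val_stmt f fr)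

theorem swAll (f : Fin d → Fin d → Fin d → ℝ) (fr : NFr n T φ ψ) : SwStmt f fr := sw_stmt f fr (val_stmt f fr)

end Vale.Agent.P353.Z.ANF
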