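import Vale.Agent.P353.AN.NF.Defs

/-! # P353, all `N`, block NF: orthonormal bases of the traceless hermitian matrices (helper925) -/

open MeasureTheory Filter Topology Matrix
open scoped ContDiff

namespace Vale.Agent.P353.Z.ANF

/-- hermitian matrix with real coordinates `A` -/
noncomputable def ex925_hm (m : ℕ) : EuclideanSpace ℝ (Fin m × Fin m) →ₗ[ℝ] Matrix (Fin m) (Fin m) ℂ where
  toFun A := Matrix.of fun p q => (((A (p, q) + A (q, p)) / 2 : ℝ) : ℂ) + Complex.I * (((A (p, q) - A (q, p)) / 2 : ℝ) : ℂ)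
  map_add' A B := by
    ext p q
    simp only [PiLp.add_apply, Matrix.of_apply, Matrix.add_apply]
    push_cast
    ring
  map_smul' c A := by
    ext p q
    simp only [PiLp.smul_apply, smul_eq_mul, Matrix.of_apply, Matrix.smul_apply, Complex.real_smul, RingHom.id_apply]
    push_cast
    ring

/-- real coordinates of a hermitian matrix -/
noncomputable def ex925_ch {m : ℕ} (X : Matrix (Fin m) (Fin m) ℂ) : EuclideanSpace ℝ (Fin m × Fin m) :=
  WithLp.toLp 2 fun p => (X p.1 p.2).re + (X p.1 p.2).im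

theorem ex925_hm_apply {m : ℕ} (A : EuclideanSpace ℝ (Fin m × Fin m)) (p q : Fin m) : ex925_hm m A p q =
    (((A (p, q) + A (q, p)) / 2 : ℝ) : ℂ) + Complex.I * (((A (p, q) - A (q, p)) / 2 : ℝ) : ℂ) := rfl

theorem ex925_herm {m : ℕ} (A : EuclideanSpace ℝ (Fin m × Fin m)) : (ex925_hm m A).conjTranspose = ex925_hm m A := by
  ext p q
  rw [Matrix.conjTranspose_apply, ex925_hm_apply, ex925_hm_apply]
  simp only [star_add, star_mul', Complex.star_def, Complex.conj_ofReal, Complex.conj_I]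
  push_cast
  ring

theorem ex925_hm_ch {m : ℕ} (X : Matrix (Fin m) (Fin m) ℂ) (hX : X.conjTranspose = X) : ex925_hm m (ex925_ch X) = X := by
  ext p q
  have h1 : X q p = star (X p q) := by
    conv_lhs => rw [← hX]
    rfl
  rw [ex925_hm_apply]
  simp only [ex925_ch, h1, Complex.star_def, Complex.conj_re, Complex.conj_im]
  apply Complex.ext
  · simp
    ring
  · simp

theorem ex925_tr {m : ℕ} (A B : EuclideanSpace ℝ (Fin m × Fin m)) :
    (ex925_hm m A * ex925_hm m B).trace = ((inner ℝ A B : ℝ) : ℂ) := by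
  have h1 : (ex925_hm m A * ex925_hm m B).trace = ∑ p, ∑ q, ex925_hm m A p q * ex925_hm m B q p := by
    simp only [Matrix.trace, Matrix.diag, Matrix.mul_apply]
  have h2 : (inner ℝ A B : ℝ) = ∑ p, ∑ q, A (p, q) * B (p, q) := by
    rw [PiLp.inner_apply, Fintype.sum_prod_type]
    refine Finset.sum_congr rfl fun p _ => Finset.sum_congr rfl fun q _ => ?_
    simp [mul_comm]
  have h3 : ∑ p, ∑ q, ex925_hm m A p q * ex925_hm m B q p = ∑ p, ∑ q, ex925_hm m A q p * ex925_hm m B p q :=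
    Finset.sum_comm
  have h4 : ∑ p, ∑ q, A (p, q) * B (p, q) = ∑ p, ∑ q, A (q, p) * B (q, p) := Finset.sum_comm
  have h5 : ∑ p, ∑ q, ex925_hm m A p q * ex925_hm m B q p + ∑ p, ∑ q, ex925_hm m A q p * ex925_hm m B p q =
      ((∑ p, ∑ q, A (p, q) * B (p, q) + ∑ p, ∑ q, A (q, p) * B (q, p) : ℝ) : ℂ) := by
    push_cast
    rw [← Finset.sum_add_distrib, ← Finset.sum_add_distrib]
    refine Finset.sum_congr rfl fun p _ => ?_
    rw [← Finset.sum_add_distrib, ← Finset.sum_add_distrib]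
    refine Finset.sum_congr rfl fun q _ => ?_
    simp only [ex925_hm_apply]
    push_cast
    linear_combination ((A (p, q) - A (q, p)) / 2 * ((B (q, p) - B (p, q)) / 2) +
      (A (q, p) - A (p, q)) / 2 * ((B (p, q) - B (q, p)) / 2) : ℂ) * Complex.I_sq
  rw [h1, h2]
  rw [← h3, ← h4] at h5
  push_cast at h5 ⊢
  linear_combination h5 / 2

theorem ex925_bas (m : ℕ) (hm : 1 ≤ m) : ∃ (Tb : Fin (m ^ 2 - 1) → Matrix (Fin m) (Fin m) ℂ)
    (fb : Fin (m ^ 2 - 1) → Fin (m ^ 2 - 1) → Fin (m ^ 2 - 1) → ℝ), Bas m (m ^ 2 - 1) Tb fb := by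
  set J : EuclideanSpace ℝ (Fin m × Fin m) := WithLp.toLp 2 fun p => if p.1 = p.2 then 1 else 0 with hJ
  have hJt : ∀ A : EuclideanSpace ℝ (Fin m × Fin m), (ex925_hm m A).trace = ((inner ℝ J A : ℝ) : ℂ) := by
    intro A
    rw [PiLp.inner_apply, Fintype.sum_prod_type]
    simp only [Matrix.trace, Matrix.diag, ex925_hm_apply, hJ]
    push_cast
    refine Finset.sum_congr rfl fun p _ => ?_
    rw [Finset.sum_eq_single p]
    · simp
    · intro b _ hb
      simp [hb.symm]
    · simp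
  have hJ0 : J ≠ 0 := by
    intro h
    have h1 : J (⟨0, hm⟩, ⟨0, hm⟩) = 0 := by rw [h]; rfl
    simp [hJ] at h1
  have hfin : Module.finrank ℝ (EuclideanSpace ℝ (Fin m × Fin m)) = (m ^ 2 - 1) + 1 := by
    rw [finrank_euclideanSpace, Fintype.card_prod, Fintype.card_fin]
    have h1 : 1 ≤ m ^ 2 := Nat.one_le_pow _ _ hm
    rw [Nat.sub_add_cancel h1, pow_two]
  have : Fact (Module.finrank ℝ (EuclideanSpace ℝ (Fin m × Fin m)) = (m ^ 2 - 1) + 1) := ⟨hfin⟩
  have hW : Module.finrank ℝ (Submodule.span ℝ {J})ᗮ = m ^ 2 - 1 :=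
    Submodule.finrank_orthogonal_span_singleton hJ0
  let o : OrthonormalBasis (Fin (m ^ 2 - 1)) ℝ (Submodule.span ℝ {J})ᗮ :=
    (stdOrthonormalBasis ℝ (Submodule.span ℝ {J})ᗮ).reindex (finCongr hW)
  have hcomp : ∀ X : Matrix (Fin m) (Fin m) ℂ, X.conjTranspose = X → X.trace = 0 →
      ∃ c : Fin (m ^ 2 - 1) → ℝ, X = ∑ l, ((c l : ℝ) : ℂ) • ex925_hm m (o l) := by
    intro X hX hX0
    have h1 : ex925_ch X ∈ (Submodule.span ℝ {J})ᗮ := by
      rw [Submodule.mem_orthogonal_singleton_iff_inner_right]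
      have h2 := hJt (ex925_ch X)
      rw [ex925_hm_ch X hX, hX0] at h2
      exact_mod_cast h2.symm
    have h3 := o.sum_repr' ⟨ex925_ch X, h1⟩
    refine ⟨fun l => inner ℝ (o l) ⟨ex925_ch X, h1⟩, ?_⟩
    have h4 : ex925_ch X = ∑ l, (inner ℝ (o l) (⟨ex925_ch X, h1⟩ : (Submodule.span ℝ {J})ᗮ) : ℝ) •
        ((o l : (Submodule.span ℝ {J})ᗮ) : EuclideanSpace ℝ (Fin m × Fin m)) := by
      have h5 := congrArg (Submodule.subtype _) h3
      rw [map_sum] at h5
      simp only [map_smul, Submodule.subtype_apply] at h5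
      exact h5.symm
    conv_lhs => rw [← ex925_hm_ch X hX, h4, map_sum]
    refine Finset.sum_congr rfl fun l _ => ?_
    rw [map_smul, ← Complex.coe_smul]
  have hex : ∀ A B : Fin (m ^ 2 - 1), ∃ c : Fin (m ^ 2 - 1) → ℝ,
      (-Complex.I) • (ex925_hm m (o A) * ex925_hm m (o B) - ex925_hm m (o B) * ex925_hm m (o A)) =
        ∑ l, ((c l : ℝ) : ℂ) • ex925_hm m (o l) := by
    intro A B
    refine hcomp _ ?_ ?_
    · rw [Matrix.conjTranspose_smul, Matrix.conjTranspose_sub, Matrix.conjTranspose_mul, Matrix.conjTranspose_mul,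
        ex925_herm, ex925_herm]
      simp only [star_neg, Complex.star_def, Complex.conj_I, neg_neg, neg_smul]
      rw [← smul_neg, neg_sub]
    · rw [Matrix.trace_smul, Matrix.trace_sub, Matrix.trace_mul_comm, sub_self, smul_zero]
  choose c hc using hex
  refine ⟨fun A => ex925_hm m (o A), c, rfl, fun A => ex925_herm _, fun A => ?_, fun A B => ?_, fun A B => ?_⟩
  · have h1 := (Submodule.mem_orthogonal_singleton_iff_inner_right (𝕜 := ℝ)).1 (o A).2
    rw [hJt, h1]
    simp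
  · rw [ex925_tr]
    have h1 := (orthonormal_iff_ite.1 o.orthonormal) A B
    rw [Submodule.coe_inner] at h1
    rw [h1]
    split_ifs <;> simp
  · have h1 := congrArg (fun X => Complex.I • X) (hc A B)
    simp only [smul_smul, mul_neg, Complex.I_mul_I, neg_neg, one_smul, Finset.smul_sum] at h1
    exact h1

end Vale.Agent.P353.Z.ANF
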