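import Vale.Agent.P353.AN.NF.Defs
import Vale.Agent.P353.AN.NF.ExBas

/-! # P353, all `N`, block NF: existence of block frames (`ExStmt`) -/

open MeasureTheory Filter Topology Matrix
open scoped ContDiff

namespace Vale.Agent.P353.Z.ANF

namespace EX808

variable {N k : ℕ} {n : Fin k → ℕ}

/-- diagonal block -/
def blk (E : (Σ a, Fin (n a)) ≃ Fin N) (a : Fin k) (M : Matrix (Fin N) (Fin N) ℂ) :
    Matrix (Fin (n a)) (Fin (n a)) ℂ := Matrix.of fun i j => M (E ⟨a, i⟩) (E ⟨a, j⟩)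

lemma bk_same (E : (Σ a, Fin (n a)) ≃ Fin N) (a : Fin k) (X : Matrix (Fin (n a)) (Fin (n a)) ℂ)
    (i j : Fin (n a)) : bk E a X (E ⟨a, i⟩) (E ⟨a, j⟩) = X i j := by
  simp [bk, Matrix.blockDiagonal'_apply_eq]

lemma bk_ne1 (E : (Σ a, Fin (n a)) ≃ Fin N) (a : Fin k) (X : Matrix (Fin (n a)) (Fin (n a)) ℂ)
    (s t : Σ a, Fin (n a)) (h : s.1 ≠ t.1) : bk E a X (E s) (E t) = 0 := by
  simp only [bk, Matrix.submatrix_apply, Equiv.symm_apply_apply]
  exact Matrix.blockDiagonal'_apply_ne _ _ _ h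

lemma bk_ne2 (E : (Σ a, Fin (n a)) ≃ Fin N) (a b : Fin k) (X : Matrix (Fin (n a)) (Fin (n a)) ℂ)
    (i j : Fin (n b)) (h : b ≠ a) : bk E a X (E ⟨b, i⟩) (E ⟨b, j⟩) = 0 := by
  simp only [bk, Matrix.submatrix_apply, Equiv.symm_apply_apply, Matrix.blockDiagonal'_apply_eq]
  rw [Pi.single_eq_of_ne h]
  rfl

lemma bd_app (E : (Σ a, Fin (n a)) ≃ Fin N) (v : Fin k → ℂ) (s t : Σ a, Fin (n a)) :
    bd E v (E s) (E t) = if s = t then v s.1 else 0 := by
  simp [bd, Matrix.diagonal_apply]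

lemma blk_bk (E : (Σ a, Fin (n a)) ≃ Fin N) (a : Fin k) (X : Matrix (Fin (n a)) (Fin (n a)) ℂ) :
    blk E a (bk E a X) = X := by
  ext i j
  exact bk_same E a X i j

lemma blk_bk_ne (E : (Σ a, Fin (n a)) ≃ Fin N) {a b : Fin k} (h : b ≠ a)
    (X : Matrix (Fin (n a)) (Fin (n a)) ℂ) : blk E b (bk E a X) = 0 := by
  ext i j
  exact bk_ne2 E a b X i j h

lemma blk_bd (E : (Σ a, Fin (n a)) ≃ Fin N) (a : Fin k) (v : Fin k → ℂ) :
    blk E a (bd E v) = v a • (1 : Matrix (Fin (n a)) (Fin (n a)) ℂ) := by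
  ext i j
  show bd E v (E ⟨a, i⟩) (E ⟨a, j⟩) = _
  rw [bd_app, Matrix.smul_apply, Matrix.one_apply]
  by_cases h : i = j
  · subst h
    simp
  · rw [if_neg h, if_neg (by
      intro h'
      apply h
      simpa using h'), smul_zero]

lemma tr_E (E : (Σ a, Fin (n a)) ≃ Fin N) (P M : Matrix (Fin N) (Fin N) ℂ)
    (hP : ∀ s t : Σ a, Fin (n a), s.1 ≠ t.1 → P (E s) (E t) = 0) :
    (P * M).trace = ∑ a, (blk E a P * blk E a M).trace := by
  simp only [Matrix.trace, Matrix.diag_apply, Matrix.mul_apply]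
  rw [← E.sum_comp, Fintype.sum_sigma]
  refine Finset.sum_congr rfl fun a _ => Finset.sum_congr rfl fun i _ => ?_
  rw [← E.sum_comp, Fintype.sum_sigma, Finset.sum_eq_single a]
  · rfl
  · intro b _ hb
    refine Finset.sum_eq_zero fun j _ => ?_
    rw [hP ⟨a, i⟩ ⟨b, j⟩ hb.symm, zero_mul]
  · intro h
    exact absurd (Finset.mem_univ a) h

lemma tr_bk (E : (Σ a, Fin (n a)) ≃ Fin N) (a : Fin k) (X : Matrix (Fin (n a)) (Fin (n a)) ℂ)
    (M : Matrix (Fin N) (Fin N) ℂ) : (bk E a X * M).trace = (X * blk E a M).trace := by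
  rw [tr_E E _ _ (bk_ne1 E a X), Finset.sum_eq_single a]
  · rw [blk_bk]
  · intro b _ hb
    rw [blk_bk_ne E hb, zero_mul, Matrix.trace_zero]
  · intro h
    exact absurd (Finset.mem_univ a) h

lemma tr_bd (E : (Σ a, Fin (n a)) ≃ Fin N) (v : Fin k → ℂ)
    (M : Matrix (Fin N) (Fin N) ℂ) : (bd E v * M).trace = ∑ a, v a * (blk E a M).trace := by
  rw [tr_E E _ _ (fun s t h => by
    rw [bd_app, if_neg]
    rintro rfl
    exact h rfl)]
  refine Finset.sum_congr rfl fun a _ => ?_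
  rw [blk_bd, Matrix.smul_mul, one_mul, Matrix.trace_smul, smul_eq_mul]

lemma bd_one (E : (Σ a, Fin (n a)) ≃ Fin N) : bd E (fun _ => (1 : ℂ)) = 1 := by
  unfold bd
  rw [Matrix.diagonal_one, Matrix.submatrix_one_equiv]

lemma tr_sum (E : (Σ a, Fin (n a)) ≃ Fin N) (M : Matrix (Fin N) (Fin N) ℂ) :
    M.trace = ∑ a, (blk E a M).trace := by
  have h := tr_bd E (fun _ => (1 : ℂ)) M
  rw [bd_one, one_mul] at h
  simpa using h

lemma bk_herm (E : (Σ a, Fin (n a)) ≃ Fin N) (a : Fin k) (X : Matrix (Fin (n a)) (Fin (n a)) ℂ)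
    (hX : X.conjTranspose = X) : (bk E a X).conjTranspose = bk E a X := by
  ext p q
  obtain ⟨⟨b, i⟩, rfl⟩ := E.surjective p
  obtain ⟨⟨c, j⟩, rfl⟩ := E.surjective q
  rw [Matrix.conjTranspose_apply]
  by_cases hbc : b = c
  · subst hbc
    by_cases hab : b = a
    · subst hab
      rw [bk_same, bk_same, ← Matrix.conjTranspose_apply, hX]
    · rw [bk_ne2 E a b X _ _ hab, bk_ne2 E a b X _ _ hab, star_zero]
  · rw [bk_ne1 E a X ⟨c, j⟩ ⟨b, i⟩ (fun h => hbc h.symm), bk_ne1 E a X ⟨b, i⟩ ⟨c, j⟩ hbc, star_zero]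

lemma bd_herm (E : (Σ a, Fin (n a)) ≃ Fin N) (v : Fin k → ℝ) :
    (bd E fun a => ((v a : ℝ) : ℂ)).conjTranspose = bd E fun a => ((v a : ℝ) : ℂ) := by
  ext p q
  obtain ⟨s, rfl⟩ := E.surjective p
  obtain ⟨t, rfl⟩ := E.surjective q
  rw [Matrix.conjTranspose_apply, bd_app, bd_app]
  by_cases h : s = t
  · subst h
    simp
  · rw [if_neg h, if_neg (fun h' => h h'.symm), star_zero]

lemma blk_herm (E : (Σ a, Fin (n a)) ≃ Fin N) (a : Fin k) (M : Matrix (Fin N) (Fin N) ℂ)
    (hM : M.conjTranspose = M) : (blk E a M).conjTranspose = blk E a M := by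
  ext i j
  rw [Matrix.conjTranspose_apply]
  show star (M (E ⟨a, j⟩) (E ⟨a, i⟩)) = M (E ⟨a, i⟩) (E ⟨a, j⟩)
  rw [← Matrix.conjTranspose_apply, hM]

/-- trace of a hermitian matrix -/
lemma tr_real {m : ℕ} {X : Matrix (Fin m) (Fin m) ℂ} (hX : X.conjTranspose = X) :
    ((X.trace.re : ℝ) : ℂ) = X.trace := by
  have h : star X.trace = X.trace := by rw [← Matrix.trace_conjTranspose, hX]
  exact Complex.conj_eq_iff_re.1 h

lemma tr_mul_real {m : ℕ} {X Y : Matrix (Fin m) (Fin m) ℂ} (hX : X.conjTranspose = X)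
    (hY : Y.conjTranspose = Y) : (((X * Y).trace.re : ℝ) : ℂ) = (X * Y).trace := by
  have h : star (X * Y).trace = (X * Y).trace := by
    rw [← Matrix.trace_conjTranspose, Matrix.conjTranspose_mul, hX, hY, Matrix.trace_mul_comm]
  exact Complex.conj_eq_iff_re.1 h

/-- completeness -/
lemma complete {d : ℕ} {T : Fin d → Matrix (Fin N) (Fin N) ℂ} {f : Fin d → Fin d → Fin d → ℝ}
    (M : Bas N d T f) (hN : 0 < N) (X : Matrix (Fin N) (Fin N) ℂ) :
    X = ∑ A, (T A * X).trace • T A + (X.trace / N) • (1 : Matrix (Fin N) (Fin N) ℂ) := by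
  have hN' : (N : ℂ) ≠ 0 := by exact_mod_cast hN.ne'
  let Λ : Matrix (Fin N) (Fin N) ℂ →ₗ[ℂ] (Fin d → ℂ) × ℂ :=
    { toFun := fun X => (fun A => (T A * X).trace, X.trace)
      map_add' := fun X Y => by
        ext <;> simp [mul_add, Matrix.trace_add]
      map_smul' := fun c X => by
        ext <;> simp [Matrix.trace_smul] }
  have hval : ∀ (c : Fin d → ℂ) (s : ℂ), Λ (∑ A, c A • T A +
      (s / N) • (1 : Matrix (Fin N) (Fin N) ℂ)) = (c, s) := by
    intro c s
    apply Prod.ext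
    · funext B
      change (T B * (∑ A, c A • T A + (s / N) • (1 : Matrix (Fin N) (Fin N) ℂ))).trace = c B
      rw [mul_add, Matrix.mul_sum, Matrix.trace_add, Matrix.trace_sum, Finset.sum_eq_single B]
      · rw [Matrix.mul_smul, Matrix.trace_smul, M.ortho, if_pos rfl, Matrix.mul_smul,
          mul_one, Matrix.trace_smul, M.tr0]
        simp
      · intro A _ hA
        rw [Matrix.mul_smul, Matrix.trace_smul, M.ortho, if_neg (Ne.symm hA), smul_zero]
      · simp
    · change (∑ A, c A • T A + (s / N) • (1 : Matrix (Fin N) (Fin N) ℂ)).trace = s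
      rw [Matrix.trace_add, Matrix.trace_sum, Finset.sum_eq_zero (fun A _ => by
        rw [Matrix.trace_smul, M.tr0, smul_zero]), Matrix.trace_smul, Matrix.trace_one]
      simp [hN']
  have hsurj : Function.Surjective Λ := fun y => ⟨_, hval y.1 y.2⟩
  have hrank : Module.finrank ℂ (Matrix (Fin N) (Fin N) ℂ) =
      Module.finrank ℂ ((Fin d → ℂ) × ℂ) := by
    rw [Module.finrank_matrix, Module.finrank_prod, Module.finrank_pi, Module.finrank_self,
      Fintype.card_fin, Fintype.card_fin, M.dim_eq, mul_one]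
    have : 1 ≤ N ^ 2 := Nat.one_le_pow _ _ hN
    have h2 : N ^ 2 = N * N := sq N
    omega
  have hinj : Function.Injective Λ :=
    (LinearMap.injective_iff_surjective_of_finrank_eq_finrank hrank).2 hsurj
  apply hinj
  rw [hval]
  rfl

/-- weights -/
lemma weights {k : ℕ} (n : Fin k → ℕ) (hn : ∀ a, 1 ≤ n a) :
    ∃ (dz : ℕ) (c : Fin dz → Fin k → ℝ), (∀ B, ∑ a, (n a : ℝ) * c B a = 0) ∧
      (∀ B B', ∑ a, (n a : ℝ) * (c B a * c B' a) = if B = B' then 1 else 0) ∧
      ∀ v : Fin k → ℝ, ∑ a, (n a : ℝ) * v a = 0 → (∀ B, ∑ a, (n a : ℝ) * (c B a * v a) = 0) → v = 0 := by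
  have hp : ∀ a, 0 < Real.sqrt (n a : ℝ) := fun a => Real.sqrt_pos.2 (by exact_mod_cast hn a)
  have hs : ∀ a, Real.sqrt (n a : ℝ) * Real.sqrt (n a : ℝ) = n a := fun a =>
    Real.mul_self_sqrt (Nat.cast_nonneg _)
  have hk1 : ∀ (a : Fin k) (x : ℝ), (n a : ℝ) * (x / Real.sqrt (n a : ℝ)) = Real.sqrt (n a : ℝ) * x := by
    intro a x
    rw [mul_div_assoc', div_eq_iff (hp a).ne']
    linear_combination (-x) * hs a
  have hk2 : ∀ (a : Fin k) (x y : ℝ), (n a : ℝ) * (x / Real.sqrt (n a : ℝ) * (y / Real.sqrt (n a : ℝ))) = x * y := by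
    intro a x y
    rw [div_mul_div_comm, hs a, mul_div_assoc', mul_comm, mul_div_assoc, div_self, mul_one]
    have := hn a
    positivity
  set q : EuclideanSpace ℝ (Fin k) := WithLp.toLp 2 fun a => Real.sqrt (n a : ℝ) with hq
  set W : Submodule ℝ (EuclideanSpace ℝ (Fin k)) := (Submodule.span ℝ {q})ᗮ with hW
  have hmem : ∀ w : EuclideanSpace ℝ (Fin k), w ∈ W ↔ ∑ a, Real.sqrt (n a : ℝ) * w a = 0 := by
    intro w
    rw [hW, Submodule.mem_orthogonal_singleton_iff_inner_right, PiLp.inner_apply]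
    simp only [hq, RCLike.inner_apply, conj_trivial]
    constructor
    · intro h
      rw [← h]
      exact Finset.sum_congr rfl fun a _ => mul_comm _ _
    · intro h
      rw [← h]
      exact Finset.sum_congr rfl fun a _ => mul_comm _ _
  let b := stdOrthonormalBasis ℝ W
  have hinner : ∀ x y : W, inner ℝ x y = ∑ a, (x : EuclideanSpace ℝ (Fin k)) a *
      (y : EuclideanSpace ℝ (Fin k)) a := by
    intro x y
    rw [Submodule.coe_inner, PiLp.inner_apply]
    simp only [RCLike.inner_apply, conj_trivial]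
    exact Finset.sum_congr rfl fun a _ => mul_comm _ _
  refine ⟨Module.finrank ℝ W, fun B a => (b B : EuclideanSpace ℝ (Fin k)) a / Real.sqrt (n a : ℝ), ?_, ?_, ?_⟩
  · intro B
    rw [← (hmem _).1 (b B).2]
    exact Finset.sum_congr rfl fun a _ => hk1 a _
  · intro B B'
    rw [← orthonormal_iff_ite.1 b.orthonormal B B', hinner]
    exact Finset.sum_congr rfl fun a _ => hk2 a _ _
  · intro v h1 h2
    set w : EuclideanSpace ℝ (Fin k) := WithLp.toLp 2 fun a => Real.sqrt (n a : ℝ) * v a with hw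
    have hwW : w ∈ W := by
      rw [hmem, ← h1]
      refine Finset.sum_congr rfl fun a _ => ?_
      show Real.sqrt (n a : ℝ) * (Real.sqrt (n a : ℝ) * v a) = _
      rw [← mul_assoc, hs a]
    have h3 : (⟨w, hwW⟩ : W) = 0 := by
      rw [← b.sum_repr' ⟨w, hwW⟩]
      refine Finset.sum_eq_zero fun B _ => ?_
      have h4 : inner ℝ (b B) (⟨w, hwW⟩ : W) = 0 := by
        rw [hinner, ← h2 B]
        refine Finset.sum_congr rfl fun a _ => ?_
        show (b B : EuclideanSpace ℝ (Fin k)) a * (Real.sqrt (n a : ℝ) * v a) =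
          (n a : ℝ) * ((b B : EuclideanSpace ℝ (Fin k)) a / Real.sqrt (n a : ℝ) * v a)
        rw [← mul_assoc (n a : ℝ), hk1]
        ring
      rw [h4, zero_smul]
    have h5 : w = 0 := congrArg Subtype.val h3
    funext a
    have h6 : Real.sqrt (n a : ℝ) * v a = 0 := by
      have := congrFun (congrArg WithLp.ofLp h5) a
      simpa [hw] using this
    exact (mul_eq_zero.1 h6).resolve_left (hp a).ne'

/-- a hermitian matrix orthogonal to the block diagonal part vanishes on the diagonal blocks -/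
lemma vanish {Tb : ∀ m : ℕ, Fin (m ^ 2 - 1) → Matrix (Fin m) (Fin m) ℂ}
    {fb : ∀ m : ℕ, Fin (m ^ 2 - 1) → Fin (m ^ 2 - 1) → Fin (m ^ 2 - 1) → ℝ}
    (hTb : ∀ m, 1 ≤ m → Bas m (m ^ 2 - 1) (Tb m) (fb m)) (hn : ∀ a, 1 ≤ n a)
    (E : (Σ a, Fin (n a)) ≃ Fin N) {dz : ℕ} (c : Fin dz → Fin k → ℝ)
    (hc : ∀ v : Fin k → ℝ, ∑ a, (n a : ℝ) * v a = 0 → (∀ B, ∑ a, (n a : ℝ) * (c B a * v a) = 0) → v = 0)
    (X : Matrix (Fin N) (Fin N) ℂ) (hX : X.conjTranspose = X) (h0 : X.trace = 0)
    (h1 : ∀ a i, (bk E a (Tb (n a) i) * X).trace = 0)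
    (h2 : ∀ B, ((bd E fun a => ((c B a : ℝ) : ℂ)) * X).trace = 0)
    (s t : Σ a, Fin (n a)) (hst : s.1 = t.1) : X (E s) (E t) = 0 := by
  set x : Fin k → ℝ := fun a => (blk E a X).trace.re / (n a : ℝ) with hx
  have hn0 : ∀ a, (n a : ℝ) ≠ 0 := fun a => by
    have := hn a
    positivity
  have hxr : ∀ a, (((n a : ℝ) * x a : ℝ) : ℂ) = (blk E a X).trace := by
    intro a
    rw [hx]
    simp only
    rw [mul_div_cancel₀ _ (hn0 a)]
    exact tr_real (blk_herm E a X hX)
  have hx0 : x = 0 := by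
    refine hc x ?_ ?_
    · have h := tr_sum E X
      rw [h0] at h
      have h3 : ((∑ a, (n a : ℝ) * x a : ℝ) : ℂ) = 0 := by
        rw [Complex.ofReal_sum, h]
        exact Finset.sum_congr rfl fun a _ => hxr a
      exact_mod_cast h3
    · intro B
      have h := h2 B
      rw [tr_bd] at h
      have h3 : ((∑ a, (n a : ℝ) * (c B a * x a) : ℝ) : ℂ) = 0 := by
        rw [Complex.ofReal_sum, ← h]
        refine Finset.sum_congr rfl fun a _ => ?_
        rw [← hxr a]
        push_cast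
        ring
      exact_mod_cast h3
  have hb : ∀ a, blk E a X = 0 := by
    intro a
    have h3 := complete (hTb (n a) (hn a)) (hn a) (blk E a X)
    have h4 : (blk E a X).trace = 0 := by
      rw [← hxr a, hx0]
      simp
    rw [h3, h4, zero_div, zero_smul, add_zero]
    refine Finset.sum_eq_zero fun i _ => ?_
    rw [← tr_bk, h1, zero_smul]
  obtain ⟨a, i⟩ := s
  obtain ⟨b, j⟩ := t
  simp only at hst
  subst hst
  have h5 := congrFun (congrFun (hb a) i) j
  exact h5

end EX808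

open EX808

/-- **NF-Ex** from the existence of bases -/
theorem ex_of (hbas : ∀ m : ℕ, 1 ≤ m → ∃ (Tb : Fin (m ^ 2 - 1) → Matrix (Fin m) (Fin m) ℂ)
    (fb : Fin (m ^ 2 - 1) → Fin (m ^ 2 - 1) → Fin (m ^ 2 - 1) → ℝ), Bas m (m ^ 2 - 1) Tb fb) : ExStmt := by
  intro N d k n T f hT hk hn hN
  have hbas' : ∀ m : ℕ, ∃ (Tb : Fin (m ^ 2 - 1) → Matrix (Fin m) (Fin m) ℂ)
    (fb : Fin (m ^ 2 - 1) → Fin (m ^ 2 - 1) → Fin (m ^ 2 - 1) → ℝ), 1 ≤ m → Bas m (m ^ 2 - 1) Tb fb := by
    intro m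
    by_cases hm : 1 ≤ m
    · obtain ⟨Tb, fb, h⟩ := hbas m hm
      exact ⟨Tb, fb, fun _ => h⟩
    · exact ⟨fun _ => 0, fun _ _ _ => 0, fun h => absurd h hm⟩
  choose Tb fb hTb using hbas'
  obtain ⟨dz, c, hc0, hc1, hc2⟩ := weights n hn
  have hN0 : 0 < N := by
    rw [← hN]
    have h0 : n ⟨0, by omega⟩ ≤ ∑ a, n a := Finset.single_le_sum (fun a _ => Nat.zero_le _) (Finset.mem_univ _)
    exact lt_of_lt_of_le (hn _) h0
  -- positions
  have hcard : Fintype.card (Σ a, Fin (n a)) = Fintype.card (Fin N) := by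
    rw [Fintype.card_sigma, Fintype.card_fin]
    simpa using hN
  let E : (Σ a, Fin (n a)) ≃ Fin N := Fintype.equivOfCardEq hcard
  obtain ⟨ds, hds⟩ : ∃ ds, ds = Fintype.card (Σ a, Fin (n a ^ 2 - 1)) := ⟨_, rfl⟩
  let es : (Σ a, Fin (n a ^ 2 - 1)) ≃ Fin ds := Fintype.equivFinOfCardEq hds.symm
  let XX : Fin ds ⊕ Fin dz → Matrix (Fin N) (Fin N) ℂ :=
    Sum.elim (fun s => bk E (es.symm s).1 (Tb _ (es.symm s).2)) (fun B => bd E fun a => ((c B a : ℝ) : ℂ))
  have hXs : ∀ a i, XX (Sum.inl (es ⟨a, i⟩)) = bk E a (Tb (n a) i) := by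
    intro a i
    show bk E (es.symm (es ⟨a, i⟩)).1 (Tb _ (es.symm (es ⟨a, i⟩)).2) = _
    rw [Equiv.symm_apply_apply]
  have hXz : ∀ B, XX (Sum.inr B) = bd E fun a => ((c B a : ℝ) : ℂ) := fun B => rfl
  have hXherm : ∀ p, (XX p).conjTranspose = XX p := by
    rintro (s | B)
    · obtain ⟨⟨a, i⟩, rfl⟩ := es.surjective s
      rw [hXs]
      exact bk_herm E a _ ((hTb (n a) (hn a)).herm i)
    · rw [hXz]
      exact bd_herm E _
  have hXtr : ∀ p, (XX p).trace = 0 := by
    rintro (s | B)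
    · obtain ⟨⟨a, i⟩, rfl⟩ := es.surjective s
      rw [hXs]
      have h := tr_bk E a (Tb (n a) i) 1
      rw [mul_one] at h
      have h1 : blk E a (1 : Matrix (Fin N) (Fin N) ℂ) = 1 := by
        rw [← bd_one E, blk_bd, one_smul]
      rw [h, h1, mul_one]
      exact (hTb (n a) (hn a)).tr0 i
    · rw [hXz, tr_sum E]
      have h := hc0 B
      have h3 : ((∑ a, (n a : ℝ) * c B a : ℝ) : ℂ) = 0 := by rw [h]; simp
      rw [← h3, Complex.ofReal_sum]
      refine Finset.sum_congr rfl fun a _ => ?_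
      rw [blk_bd, Matrix.trace_smul, Matrix.trace_one, Fintype.card_fin, smul_eq_mul]
      push_cast
      ring
  have hXort : ∀ p q, (XX p * XX q).trace = if p = q then 1 else 0 := by
    rintro (s | B) (t | B')
    · obtain ⟨⟨a, i⟩, rfl⟩ := es.surjective s
      obtain ⟨⟨b, j⟩, rfl⟩ := es.surjective t
      rw [hXs, hXs, tr_bk]
      by_cases hab : a = b
      · subst hab
        rw [blk_bk, (hTb (n a) (hn a)).ortho]
        by_cases hij : i = j
        · subst hij
          simp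
        · rw [if_neg hij, if_neg]
          intro h
          apply hij
          have h1 := es.injective (Sum.inl_injective h)
          simpa using h1
      · rw [blk_bk_ne E hab, mul_zero, Matrix.trace_zero, if_neg]
        intro h
        apply hab
        have h1 := es.injective (Sum.inl_injective h)
        exact congrArg Sigma.fst h1
    · obtain ⟨⟨a, i⟩, rfl⟩ := es.surjective s
      rw [hXs, hXz, tr_bk, blk_bd, Matrix.mul_smul, mul_one, Matrix.trace_smul, (hTb (n a) (hn a)).tr0, smul_zero,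
        if_neg (by simp)]
    · obtain ⟨⟨a, i⟩, rfl⟩ := es.surjective t
      rw [hXs, hXz, Matrix.trace_mul_comm, tr_bk, blk_bd, Matrix.mul_smul, mul_one, Matrix.trace_smul,
        (hTb (n a) (hn a)).tr0, smul_zero, if_neg (by simp)]
    · rw [hXz, hXz, tr_bd]
      have h := hc1 B B'
      have h3 : ((∑ a, (n a : ℝ) * (c B a * c B' a) : ℝ) : ℂ) = if B = B' then 1 else 0 := by
        rw [h]
        split_ifs <;> simp
      have h4 : (if (Sum.inr B : Fin ds ⊕ Fin dz) = Sum.inr B' then (1 : ℂ) else 0) = if B = B' then 1 else 0 := by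
        simp
      rw [h4, ← h3, Complex.ofReal_sum]
      refine Finset.sum_congr rfl fun a _ => ?_
      rw [blk_bd, Matrix.trace_smul, Matrix.trace_one, Fintype.card_fin, smul_eq_mul]
      push_cast
      ring
  -- coordinates with respect to `T`
  let τ : Matrix (Fin N) (Fin N) ℂ → EuclideanSpace ℝ (Fin d) := fun X => WithLp.toLp 2 fun B => (T B * X).trace.re
  have hτ : ∀ X : Matrix (Fin N) (Fin N) ℂ, X.conjTranspose = X → X.trace = 0 →
      ∑ B, ((τ X B : ℝ) : ℂ) • T B = X := by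
    intro X hX h0
    have h := complete hT hN0 X
    rw [h0, zero_div, zero_smul, add_zero] at h
    conv_rhs => rw [h]
    refine Finset.sum_congr rfl fun B _ => ?_
    rw [← tr_mul_real (hT.herm B) hX]
  have hpair : ∀ (v : EuclideanSpace ℝ (Fin d)) (X : Matrix (Fin N) (Fin N) ℂ), X.conjTranspose = X →
      ((∑ B, ((v B : ℝ) : ℂ) • T B) * X).trace = ((∑ B, v B * τ X B : ℝ) : ℂ) := by
    intro v X hX
    rw [Finset.sum_mul, Matrix.trace_sum, Complex.ofReal_sum]
    refine Finset.sum_congr rfl fun B _ => ?_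
    rw [Matrix.smul_mul, Matrix.trace_smul, smul_eq_mul, Complex.ofReal_mul, ← tr_mul_real (hT.herm B) hX]
  have hin : ∀ x y : EuclideanSpace ℝ (Fin d), inner ℝ x y = ∑ B, x B * y B := by
    intro x y
    rw [PiLp.inner_apply]
    simp only [RCLike.inner_apply, conj_trivial]
    exact Finset.sum_congr rfl fun a _ => mul_comm _ _
  have hτin : ∀ p q, inner ℝ (τ (XX p)) (τ (XX q)) = if p = q then (1 : ℝ) else 0 := by
    intro p q
    have h := hpair (τ (XX p)) (XX q) (hXherm q)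
    rw [hτ (XX p) (hXherm p) (hXtr p), hXort, ← hin] at h
    by_cases hpq : p = q
    · rw [if_pos hpq] at h ⊢
      exact_mod_cast h.symm
    · rw [if_neg hpq] at h ⊢
      exact_mod_cast h.symm
  -- the splitting
  let ψ : Spl ds dz (ds + dz) := finSumFinEquiv
  have horth : Orthonormal ℝ (fun p : Fin ds ⊕ Fin dz => τ (XX p)) := orthonormal_iff_ite.2 hτin
  have hle : ds + dz ≤ d := by
    have h := horth.linearIndependent.fintype_card_le_finrank
    rw [Fintype.card_sum, Fintype.card_fin, Fintype.card_fin, finrank_euclideanSpace, Fintype.card_fin] at h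
    exact h
  obtain ⟨dm, hdm⟩ := Nat.exists_eq_add_of_le hle
  let φ : Spl (ds + dz) dm d := finSumFinEquiv.trans (finCongr hdm.symm)
  let v' : Fin d → EuclideanSpace ℝ (Fin d) := fun A =>
    Sum.elim (fun x => τ (XX (ψ.symm x))) (fun _ => 0) (φ.symm A)
  let s : Set (Fin d) := Set.range fun x => φ (Sum.inl x)
  have hv' : Orthonormal ℝ (s.domRestrict v') := by
    rw [orthonormal_iff_ite]
    rintro ⟨_, x, rfl⟩ ⟨_, y, rfl⟩
    show inner ℝ (v' (φ (Sum.inl x))) (v' (φ (Sum.inl y))) = _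
    have e1 : ∀ x, v' (φ (Sum.inl x)) = τ (XX (ψ.symm x)) := by
      intro x
      show Sum.elim (fun x => τ (XX (ψ.symm x))) (fun _ => 0) (φ.symm (φ (Sum.inl x))) = _
      rw [Equiv.symm_apply_apply]
      rfl
    rw [e1, e1, hτin]
    by_cases hxy : x = y
    · subst hxy
      simp
    · rw [if_neg (fun h => hxy (ψ.symm.injective h)), if_neg]
      intro h
      apply hxy
      have h1 := congrArg Subtype.val h
      exact Sum.inl_injective (φ.injective h1)
  obtain ⟨b, hb⟩ := hv'.exists_orthonormalBasis_extension_of_card_eq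
    (by rw [finrank_euclideanSpace]) (s := s) (v := v')
  have hbi : ∀ x, b (φ (Sum.inl x)) = τ (XX (ψ.symm x)) := by
    intro x
    rw [hb _ ⟨x, rfl⟩]
    show Sum.elim (fun x => τ (XX (ψ.symm x))) (fun _ => 0) (φ.symm (φ (Sum.inl x))) = _
    rw [Equiv.symm_apply_apply]
    rfl
  have hT' : ∀ x, ∑ B, ((b (φ (Sum.inl x)) B : ℝ) : ℂ) • T B = XX (ψ.symm x) := by
    intro x
    rw [hbi]
    exact hτ _ (hXherm _) (hXtr _)
  refine ⟨ds + dz, dm, ds, dz, φ, ψ, Matrix.of fun A B => b A B, ?_, ⟨?_⟩⟩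
  · ext A A'
    rw [Matrix.mul_apply]
    simp only [Matrix.transpose_apply, Matrix.of_apply]
    rw [← hin, orthonormal_iff_ite.1 b.orthonormal, Matrix.one_apply]
  · refine
      { two := hk
        pos := hn
        E := E
        es := es
        Tb := Tb
        fb := fb
        Tb_bas := hTb
        s_eq := ?_
        c := c
        z_eq := ?_
        m_eq := ?_ }
    · intro a i
      simp only [Matrix.of_apply]
      rw [hT', Equiv.symm_apply_apply, hXs]
    · intro B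
      simp only [Matrix.of_apply]
      rw [hT', Equiv.symm_apply_apply]
      exact hXz B
    · intro C s t hst
      simp only [Matrix.of_apply]
      set X : Matrix (Fin N) (Fin N) ℂ := ∑ B, ((b (φ (Sum.inr C)) B : ℝ) : ℂ) • T B with hXdef
      have hXh : X.conjTranspose = X := by
        rw [hXdef, Matrix.conjTranspose_sum]
        refine Finset.sum_congr rfl fun B _ => ?_
        rw [Matrix.conjTranspose_smul, hT.herm B]
        congr 1
        exact Complex.conj_ofReal _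
      have hX0 : X.trace = 0 := by
        rw [hXdef, Matrix.trace_sum]
        refine Finset.sum_eq_zero fun B _ => ?_
        rw [Matrix.trace_smul, hT.tr0, smul_zero]
      have hXX : ∀ p, (XX p * X).trace = 0 := by
        intro p
        rw [Matrix.trace_mul_comm, hXdef, hpair _ _ (hXherm p), ← hin]
        have h1 := hbi (ψ p)
        rw [Equiv.symm_apply_apply] at h1
        rw [← h1, orthonormal_iff_ite.1 b.orthonormal, if_neg]
        · simp
        · intro h
          exact absurd (φ.injective h) (by simp)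
      refine vanish (Tb := Tb) (fb := fb) hTb hn E c hc2 X hXh hX0 ?_ ?_ s t hst
      · intro a i
        rw [← hXs]
        exact hXX _
      · intro B
        rw [← hXz]
        exact hXX _

/-- **NF-Ex** block frames exist -/
theorem ex_stmt : ExStmt := ex_of ex925_bas

end Vale.Agent.P353.Z.ANF
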