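import Vale.Agent.P353.AN.X2.StmtG

/-! # P353, all `N`, block NF: block frames of `SU(N)` (architect helper679)

A frame for the type `n : Fin k → ℕ` is an orthonormal basis `T` of the traceless hermitian `N × N` matrices with a splitting
`d = (s + z) + m`: the `s` colours are orthonormal bases of the `su(n_a)` (block embedded), the `z` colours are block scalars, the `m` colours
vanish on the diagonal blocks. -/

open MeasureTheory Filter Topology Matrix
open scoped ContDiff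

namespace Vale.Agent.P353.Z

universe u

/-- block diagonal matrix with the single nonzero block `X` at `a` -/
noncomputable def bk {N k : ℕ} {n : Fin k → ℕ} (E : (Σ a, Fin (n a)) ≃ Fin N) (a : Fin k)
    (X : Matrix (Fin (n a)) (Fin (n a)) ℂ) : Matrix (Fin N) (Fin N) ℂ :=
  (Matrix.blockDiagonal' (Pi.single a X : ∀ b, Matrix (Fin (n b)) (Fin (n b)) ℂ)).submatrix E.symm E.symm

/-- block scalar matrix -/
noncomputable def bd {N k : ℕ} {n : Fin k → ℕ} (E : (Σ a, Fin (n a)) ≃ Fin N) (v : Fin k → ℂ) : Matrix (Fin N) (Fin N) ℂ :=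
  (Matrix.diagonal fun s : Σ a, Fin (n a) => v s.1).submatrix E.symm E.symm

/-- block frame of type `n` -/
structure NFr {N d dh dm ds dz k : ℕ} (n : Fin k → ℕ) (T : Fin d → Matrix (Fin N) (Fin N) ℂ) (φ : Spl dh dm d)
    (ψ : Spl ds dz dh) where
  two : 2 ≤ k
  pos : ∀ a, 1 ≤ n a
  E : (Σ a, Fin (n a)) ≃ Fin N
  es : (Σ a, Fin (n a ^ 2 - 1)) ≃ Fin ds
  Tb : ∀ m : ℕ, Fin (m ^ 2 - 1) → Matrix (Fin m) (Fin m) ℂ
  fb : ∀ m : ℕ, Fin (m ^ 2 - 1) → Fin (m ^ 2 - 1) → Fin (m ^ 2 - 1) → ℝ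
  Tb_bas : ∀ m, 1 ≤ m → Bas m (m ^ 2 - 1) (Tb m) (fb m)
  s_eq : ∀ a (i : Fin (n a ^ 2 - 1)), T (φ (Sum.inl (ψ (Sum.inl (es ⟨a, i⟩))))) = bk E a (Tb (n a) i)
  c : Fin dz → Fin k → ℝ
  z_eq : ∀ B, T (φ (Sum.inl (ψ (Sum.inr B)))) = bd E fun a => ((c B a : ℝ) : ℂ)
  m_eq : ∀ C (s t : Σ a, Fin (n a)), s.1 = t.1 → T (φ (Sum.inr C)) (E s) (E t) = 0

/-- the value of the central configuration `η` in direction `i` on block `a` -/
noncomputable def NFr.val {N d dh dm ds dz k : ℕ} {n : Fin k → ℕ} {T : Fin d → Matrix (Fin N) (Fin N) ℂ} {φ : Spl dh dm d}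
    {ψ : Spl ds dz dh} (fr : NFr n T φ ψ) (η : Cfg dz) (i : Fin 9) (a : Fin k) : ℝ := ∑ B, η (i, B) * fr.c B a

/-- `O` respects the splitting -/
structure Blk {d dh dm ds dz : ℕ} (φ : Spl dh dm d) (ψ : Spl ds dz dh) (O : Matrix (Fin d) (Fin d) ℝ) : Prop where
  hm : ∀ A B, O (φ (Sum.inl A)) (φ (Sum.inr B)) = 0
  mh : ∀ A B, O (φ (Sum.inr B)) (φ (Sum.inl A)) = 0
  sz : ∀ A B, O (φ (Sum.inl (ψ (Sum.inl A)))) (φ (Sum.inl (ψ (Sum.inr B)))) = 0
  zs : ∀ A B, O (φ (Sum.inl (ψ (Sum.inr B)))) (φ (Sum.inl (ψ (Sum.inl A)))) = 0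

/-- the `s` part of `O` -/
noncomputable def sO {d dh dm ds dz : ℕ} (φ : Spl dh dm d) (ψ : Spl ds dz dh) (O : Matrix (Fin d) (Fin d) ℝ) :
    Matrix (Fin ds) (Fin ds) ℝ := Matrix.of fun A B => O (φ (Sum.inl (ψ (Sum.inl A)))) (φ (Sum.inl (ψ (Sum.inl B))))

/-- the `z` part of `O` -/
noncomputable def zO {d dh dm ds dz : ℕ} (φ : Spl dh dm d) (ψ : Spl ds dz dh) (O : Matrix (Fin d) (Fin d) ℝ) :
    Matrix (Fin dz) (Fin dz) ℝ := Matrix.of fun A B => O (φ (Sum.inl (ψ (Sum.inr A)))) (φ (Sum.inl (ψ (Sum.inr B))))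

/-- the adjoint matrix -/
noncomputable def adO {N d : ℕ} (T : Fin d → Matrix (Fin N) (Fin N) ℂ) (U : BFSS.SU N) : Matrix (Fin d) (Fin d) ℝ :=
  Matrix.of fun B A => BFSS.adCoeff T U B A

namespace ANF

/-- **NF-Ex** frames exist. PROOF. For every `m ≥ 1` an orthonormal basis `Tb m` of the `m² - 1` dimensional real space of traceless hermitian matrices (trace form)
with its structure constants; orthonormal basis `c B` of `{v : ∑_a n_av_a = 0}` for the form `∑_a n_av_av'_a` (dimension `k - 1`); an orthonormal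
basis of the hermitian matrices vanishing on the diagonal blocks (dimension `N² - ∑n_a²`; e.g. `(E_{pq} + E_{qp})/√2`, `i(E_{pq} - E_{qp})/√2`). Together an orthonormal basis
`T'` of the traceless hermitian matrices; `O_{AB} = tr(T'_AT_B)` is real and orthogonal, `T'_A = ∑_BO_{AB}T_B`. -/
def ExStmt : Prop := ∀ (N d k : ℕ) (n : Fin k → ℕ) (T : Fin d → Matrix (Fin N) (Fin N) ℂ) (f : Fin d → Fin d → Fin d → ℝ),
  Bas N d T f → 2 ≤ k → (∀ a, 1 ≤ n a) → ∑ a, n a = N →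
  ∃ (dh dm ds dz : ℕ) (φ : Spl dh dm d) (ψ : Spl ds dz dh) (O : Matrix (Fin d) (Fin d) ℝ), O * Oᵀ = 1 ∧
    Nonempty (NFr n (fun A => ∑ B, ((O A B : ℝ) : ℂ) • T B) φ ψ)

/-- **NF-RotM** change of the colour frame of a model. PROOF. `T'_A = ∑O_{AB}T_B` is again an orthonormal basis, `f'` the rotated structure constants
(`Setup.rot`), `θ'^A = ∑O_{AB}θ^B`, `adCoeff T' U = O (adCoeff T U) Oᵀ`, the same `S`. -/
def RotMStmt : Prop := ∀ (N d : ℕ) (F : Type u) [NormedAddCommGroup F] [InnerProductSpace ℂ F] (M : BFSS.Model N d F)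
  (S : Setup d F), U.Rep M S → ∀ (O : Matrix (Fin d) (Fin d) ℝ) (h1 : (1 : Matrix (Fin 9) (Fin 9) ℝ) * (1 : Matrix (Fin 9) (Fin 9) ℝ)ᵀ = 1)
  (hO : O * Oᵀ = 1), ∃ M' : BFSS.Model N d F, U.Rep M' (S.rot 1 h1 O hO) ∧ (∀ A, M'.T A = ∑ B, ((O A B : ℝ) : ℂ) • M.T B) ∧
    M'.S = M.S ∧ (∀ V x, M'.act V (ro O x) = ro O (M.act V x)) ∧ ∀ V, adO M'.T V = O * adO M.T V * Oᵀ

/-- the model gives a basis (for `NFr` of a model frame) -/
def BasMStmt : Prop := ∀ (N d : ℕ) (F : Type u) [NormedAddCommGroup F] [InnerProductSpace ℂ F] (M : BFSS.Model N d F),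
  Bas N d M.T M.f

variable {N d dh dm ds dz k : ℕ} {n : Fin k → ℕ} {T : Fin d → Matrix (Fin N) (Fin N) ℂ} {φ : Spl dh dm d} {ψ : Spl ds dz dh}

/-- **NF-Val** central configurations = block values with vanishing weighted sum. PROOF. Orthonormality of `T` and tracelessness of the `z` matrices; `dz = k - 1`: a traceless
block scalar matrix is orthogonal to the `s` matrices (traceless blocks) and to the `m` matrices (`m_eq`), so it is a real combination of the
`z` matrices (`T` is a basis, `Bas`). -/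
def ValStmt (f : Fin d → Fin d → Fin d → ℝ) (fr : NFr n T φ ψ) : Prop := Bas N d T f →
  (∀ η i, ∑ a, (n a : ℝ) * fr.val η i a = 0) ∧
  (∀ v : Fin 9 → Fin k → ℝ, (∀ i, ∑ a, (n a : ℝ) * v i a = 0) → ∃ η : Cfg dz, ∀ i a, fr.val η i a = v i a) ∧
  (∀ η η' : Cfg dz, (∀ i a, fr.val η i a = fr.val η' i a) → η = η') ∧
  (∀ (η : Cfg dz) (i : Fin 9), ∑ B, η (i, B) ^ 2 = ∑ a, (n a : ℝ) * fr.val η i a ^ 2) ∧
  ∀ B, ∑ a, (n a : ℝ) * fr.c B a = 0

/-- **NF-Reg** invertibility of `∑D_i²` on `m`. PROOF. `∑_{i∈I}D_i²` is minus the sum of squares of the antisymmetric `D_i = ad η_i|_m`; its kernel consists of the `v ∈ m` with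
`[η_i,v] = 0` for `i ∈ I`; on the matrix entry `(p,q)` with `p` in block `a`, `q` in block `b`, `ad η_i` is `±i(val_i(a) - val_i(b))`; if the values differ for some `i ∈ I` for all
`a ≠ b`, `v = 0` (as `v ∈ m` has no entries in diagonal blocks). Conversely if `val_i(a) = val_i(b)` for all `i ∈ I`, any hermitian matrix supported on the blocks `(a,b)`, `(b,a)` is
in the kernel (and in `m`). -/
def RegStmt {F : Type u} [NormedAddCommGroup F] [InnerProductSpace ℂ F] (S : Setup d F) (fr : NFr n T φ ψ) : Prop :=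
  Bas N d T S.f → ∀ (I : Finset (Fin 9)) (η : Cfg dz),
    (∑ i ∈ I, AD.Dz S φ ψ η i * AD.Dz S φ ψ η i).det ≠ 0 ↔ ∀ a b, a ≠ b → ∃ i ∈ I, fr.val η i a ≠ fr.val η i b

/-- **NF-Std** frames are in standard position. PROOF. `IsSub`: block diagonal matrices are closed under commutators and orthogonal to `m`; `Cen`: block scalars commute with block
diagonal matrices; `inv`: NF-Reg with `I = {8}` (`det D² = (det D)²`); `cen` the same; `less`: `su(n_a)` has no centre. -/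
def StdStmt {F : Type u} [NormedAddCommGroup F] [InnerProductSpace ℂ F] (S : Setup d F) (fr : NFr n T φ ψ) : Prop :=
  Bas N d T S.f → RegStmt S fr → ∀ z₀ : Cfg dz, (∀ a b, a ≠ b → fr.val z₀ 8 a ≠ fr.val z₀ 8 b) → AD.Std2 S φ ψ z₀

/-- **NF-One** the zero mode of the semisimple part is unique. PROOF. `h.ss.f` is the direct sum of the `fb (n a)` (the commutator of two block embedded matrices: different
blocks commute, same block: `Tb_bas.comm`); `IHStmt` gives `OneA 1 (fb (n a))`; add the blocks one after the other with `ProdStmt` (partial sums over `a`),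
starting with `ZeroStmt`. -/
def OneStmt {F : Type u} [NormedAddCommGroup F] [InnerProductSpace ℂ F] (S : Setup d F) (fr : NFr n T φ ψ) : Prop :=
  Bas N d T S.f → AX2.IHStmt.{u} → AX2.ProdStmt.{u} → AX2.ZeroStmt.{u} → (∀ a, IHM.{u} (n a)) →
    ∀ (z₀ : Cfg dz) (h : AD.Std2 S φ ψ z₀), OneA.{u} 1 h.ss.f

/-- structure constants of the semisimple part -/
def SfStmt {F : Type u} [NormedAddCommGroup F] [InnerProductSpace ℂ F] (S : Setup d F) (fr : NFr n T φ ψ) : Prop :=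
  Bas N d T S.f → ∀ (a b c : Fin k) (i : Fin (n a ^ 2 - 1)) (j : Fin (n b ^ 2 - 1)) (l : Fin (n c ^ 2 - 1)),
    S.f (φ (Sum.inl (ψ (Sum.inl (fr.es ⟨a, i⟩))))) (φ (Sum.inl (ψ (Sum.inl (fr.es ⟨b, j⟩)))))
      (φ (Sum.inl (ψ (Sum.inl (fr.es ⟨c, l⟩))))) =
    if h : a = b ∧ a = c then fr.fb (n a) i (Fin.cast (by rw [h.1]) j) (Fin.cast (by rw [h.2]) l) else 0

/-- exchange of two equal blocks: permutation of the positions -/
def swP {k : ℕ} {n : Fin k → ℕ} (a b : Fin k) (hab : n a = n b) (s : Σ a, Fin (n a)) : Σ a, Fin (n a) :=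
  if h : s.1 = a then ⟨b, Fin.cast (by rw [h, hab]) s.2⟩ else if h : s.1 = b then ⟨a, Fin.cast (by rw [h, hab]) s.2⟩ else s

/-- **NF-Nrm** normaliser elements. PROOF. `U` maps block scalar matrices to block scalar matrices (`z` and the identity), so it permutes the block projections:
`UP_aU^* = P_{σ(a)}`, `n ∘ σ = n` (rank). `σ` is a product of exchanges of equal blocks (induction on the number of moved points), each exchange `(a b)` is implemented by
`e^{iφ}W_{ab}`, `W_{ab}` the permutation matrix of `swP`, `e^{iφ}` an `N`-th root of `det W_{ab} = ±1`; the remaining factor is block diagonal. -/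
def NrmStmt (f : Fin d → Fin d → Fin d → ℝ) (fr : NFr n T φ ψ) : Prop := Bas N d T f →
  ∀ P : BFSS.SU N → Prop, (∀ V W, P V → P W → P (V * W)) →
    (∀ V : BFSS.SU N, Blk φ ψ (adO T V) → zO φ ψ (adO T V) = 1 → P V) →
    (∀ (a b : Fin k) (_ : a ≠ b) (hab : n a = n b) (V : BFSS.SU N) (c : ℂ), ‖c‖ = 1 →
      (∀ s t, V.val (fr.E s) (fr.E t) = if s = swP a b hab t then c else 0) → P V) →
    ∀ V : BFSS.SU N, Blk φ ψ (adO T V) → P V

/-- **NF-Sw** the adjoint action of an exchange. PROOF. Conjugation with the permutation matrix (the phase cancels): `bk E a X ↦ bk E b X`, block scalars: exchange of the values. -/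
def SwStmt (f : Fin d → Fin d → Fin d → ℝ) (fr : NFr n T φ ψ) : Prop := Bas N d T f →
  ∀ (a b : Fin k) (_ : a ≠ b) (hab : n a = n b) (V : BFSS.SU N) (c : ℂ), ‖c‖ = 1 →
    (∀ s t, V.val (fr.E s) (fr.E t) = if s = swP a b hab t then c else 0) →
    Blk φ ψ (adO T V) ∧
    (∀ (η : Cfg dz) i e, fr.val (ro (zO φ ψ (adO T V)) η) i e = fr.val η i (Equiv.swap a b e)) ∧
    ∀ s t : (Σ a, Fin (n a ^ 2 - 1)), sO φ ψ (adO T V) (fr.es s) (fr.es t) =
      if s = (if h : t.1 = a then ⟨b, Fin.cast (by rw [h, hab]) t.2⟩ else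
        if h : t.1 = b then ⟨a, Fin.cast (by rw [h, hab]) t.2⟩ else t) then 1 else 0

end ANF

end Vale.Agent.P353.Z
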